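import Vale.Agent.P011.H428.C2Nrd
import Vale.Agent.P011.Two.Qr
import Mathlib.LinearAlgebra.Matrix.SchurComplement

/-!
The special unitary group of the hermitian plane `D × D`.
-/

open Module Matrix

set_option linter.unusedSectionVars false

namespace Vale.Agent.P011.H699

open Vale.Agent.P011.Two

section gen

variable {K D Ω : Type} [Field K] [DivisionRing D] [Algebra K D] [Field Ω] [Algebra K Ω] {n : ℕ}
  (f : D →ₐ[K] Matrix (Fin n) (Fin n) Ω)

theorem map_eq (u : (D × D) ≃ₗ[D] (D × D)) (z : D × D) :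
    u z = (z.1 * (u (1, 0)).1 + z.2 * (u (0, 1)).1, z.1 * (u (1, 0)).2 + z.2 * (u (0, 1)).2) := by
  have h : z = z.1 • ((1, 0) : D × D) + z.2 • ((0, 1) : D × D) := by
    ext <;> simp
  conv_lhs => rw [h, map_add, map_smul, map_smul]
  rfl

/-- The matrix of an automorphism of `D × D` over a splitting field. -/
def blk (u : (D × D) ≃ₗ[D] (D × D)) : Matrix (Fin n ⊕ Fin n) (Fin n ⊕ Fin n) Ω :=
  fromBlocks (f (u (1, 0)).1) (f (u (1, 0)).2) (f (u (0, 1)).1) (f (u (0, 1)).2)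

theorem blk_one : blk f 1 = 1 := by
  have h1 : (1 : (D × D) ≃ₗ[D] (D × D)) (1, 0) = (1, 0) := rfl
  have h2 : (1 : (D × D) ≃ₗ[D] (D × D)) (0, 1) = (0, 1) := rfl
  rw [blk, h1, h2, map_one, map_zero, fromBlocks_one]

theorem blk_mul (u v : (D × D) ≃ₗ[D] (D × D)) : blk f (u * v) = blk f v * blk f u := by
  have h1 : (u * v) (1, 0) = u (v (1, 0)) := rfl
  have h2 : (u * v) (0, 1) = u (v (0, 1)) := rfl
  rw [blk, blk, blk, fromBlocks_multiply, h1, h2, map_eq u (v (1, 0)), map_eq u (v (0, 1))]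
  simp only [map_add, map_mul]

/-- The reduced norm of an automorphism of `D × D`. -/
noncomputable def nrd2 (u : (D × D) ≃ₗ[D] (D × D)) : Ω := (blk f u).det

theorem nrd2_one : nrd2 f 1 = 1 := by rw [nrd2, blk_one, det_one]

theorem nrd2_mul (u v : (D × D) ≃ₗ[D] (D × D)) : nrd2 f (u * v) = nrd2 f u * nrd2 f v := by
  rw [nrd2, blk_mul, det_mul, mul_comm]
  rfl

theorem nrd2_mul_inv (u : (D × D) ≃ₗ[D] (D × D)) : nrd2 f u * nrd2 f u⁻¹ = 1 := by
  rw [← nrd2_mul, mul_inv_cancel, nrd2_one]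

theorem nrd2_ne_zero (u : (D × D) ≃ₗ[D] (D × D)) : nrd2 f u ≠ 0 :=
  left_ne_zero_of_mul_eq_one (nrd2_mul_inv f u)

theorem nrd2_inv (u : (D × D) ≃ₗ[D] (D × D)) : nrd2 f u⁻¹ = (nrd2 f u)⁻¹ :=
  eq_inv_of_mul_eq_one_right (nrd2_mul_inv f u)

theorem nrd2_diag {t t' : D} {u : (D × D) ≃ₗ[D] (D × D)} (h : IsDiag t t' u) :
    nrd2 f u = (f t).det * (f t').det := by
  rw [nrd2, blk, h.1, h.2]
  change (fromBlocks (f t) (f 0) (f 0) (f t')).det = _
  rw [map_zero, det_fromBlocks_zero₂₁]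

/-- The reduced norm by elimination. -/
theorem nrd2_of_ne {u : (D × D) ≃ₗ[D] (D × D)} (h : (u (1, 0)).1 ≠ 0) :
    nrd2 f u = (f (u (1, 0)).1).det *
      (f ((u (0, 1)).2 - (u (0, 1)).1 * ((u (1, 0)).1)⁻¹ * (u (1, 0)).2)).det := by
  let _ : Invertible (f (u (1, 0)).1) := ⟨f ((u (1, 0)).1)⁻¹, by
    rw [← map_mul, inv_mul_cancel₀ h, map_one], by rw [← map_mul, mul_inv_cancel₀ h, map_one]⟩
  rw [nrd2, blk, det_fromBlocks₁₁]
  congr 2
  rw [map_sub, map_mul, map_mul]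
  rfl

end gen

section group

variable {K D Ω : Type} [Field K] [DivisionRing D] [StarRing D] [Algebra K D] [Field Ω]
  [Algebra K Ω] {n : ℕ} (f : D →ₐ[K] Matrix (Fin n) (Fin n) Ω)

/-- The isometries of reduced norm one. -/
def G0 (g : D) : Subgroup ((D × D) ≃ₗ[D] (D × D)) where
  carrier := {u | u ∈ Uh g ∧ nrd2 f u = 1}
  mul_mem' := by
    rintro u v ⟨hu, hu'⟩ ⟨hv, hv'⟩
    exact ⟨mul_mem hu hv, by rw [nrd2_mul, hu', hv', mul_one]⟩
  one_mem' := ⟨one_mem _, nrd2_one f⟩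
  inv_mem' := by
    rintro u ⟨hu, hu'⟩
    exact ⟨inv_mem hu, by rw [nrd2_inv, hu', inv_one]⟩

theorem mem_G0 {g : D} {u : (D × D) ≃ₗ[D] (D × D)} : u ∈ G0 f g ↔ u ∈ Uh g ∧ nrd2 f u = 1 :=
  Iff.rfl

theorem G0_le (g : D) : G0 f g ≤ Uh g := fun _ h => h.1

theorem G0_conj {g : D} {v x : (D × D) ≃ₗ[D] (D × D)} (hv : v ∈ Uh g) (hx : x ∈ G0 f g) :
    v * x * v⁻¹ ∈ G0 f g := by
  refine ⟨mul_mem (mul_mem hv hx.1) (inv_mem hv), ?_⟩
  rw [nrd2_mul, nrd2_mul, hx.2, mul_one, nrd2_mul_inv]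

theorem comm_mem {g : D} {u v : (D × D) ≃ₗ[D] (D × D)} (hu : u ∈ Uh g) (hv : v ∈ Uh g) :
    u * v * u⁻¹ * v⁻¹ ∈ G0 f g := by
  refine ⟨mul_mem (mul_mem (mul_mem hu hv) (inv_mem hu)) (inv_mem hv), ?_⟩
  rw [nrd2_mul, nrd2_mul, nrd2_mul, nrd2_inv, nrd2_inv]
  have h1 := nrd2_ne_zero f u
  have h2 := nrd2_ne_zero f v
  field_simp

end group

section unitary

variable {D : Type} [DivisionRing D] [StarRing D] {g : D}

theorem hh_symm {g : D} (hg : star g = g) (x y : D × D) : star (hh g x y) = hh g y x := by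
  rw [hh, hh, star_add, star_mul, star_mul, star_mul, star_star, star_star, hg, mul_assoc]

theorem hh_move {g : D} {u : (D × D) ≃ₗ[D] (D × D)} (hu : u ∈ Uh g) (x y : D × D) :
    hh g (u x) y = hh g x (u⁻¹ y) := by
  have h := hu x (u⁻¹ y)
  rwa [show u (u⁻¹ y) = y from u.apply_symm_apply y] at h

theorem hh_left (g : D) (x : D × D) : hh g (1, 0) x = star x.1 := by
  rw [hh]
  simp

theorem hh_left' (g : D) (x : D × D) : hh g (0, 1) x = g * star x.2 := by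
  rw [hh]
  simp

theorem hh_right (g : D) (x : D × D) : hh g x (1, 0) = x.1 := by
  rw [hh]
  simp

theorem hh_right' (g : D) (x : D × D) : hh g x (0, 1) = x.2 * g := by
  rw [hh]
  simp

/-- The matrix of the inverse of an isometry. -/
theorem inv_entries (hg : star g = g) (hg0 : g ≠ 0) {u : (D × D) ≃ₗ[D] (D × D)}
    (hu : u ∈ Uh g) :
    (u⁻¹ (1, 0)).1 = star (u (1, 0)).1 ∧ (u⁻¹ (1, 0)).2 = star (u (0, 1)).1 * g⁻¹ ∧
      (u⁻¹ (0, 1)).1 = g * star (u (1, 0)).2 ∧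
      (u⁻¹ (0, 1)).2 = g * star (u (0, 1)).2 * g⁻¹ := by
  have hgi : star g⁻¹ = g⁻¹ := by rw [star_inv₀, hg]
  have h1 := hh_move hu (1, 0) (1, 0)
  have h2 := hh_move hu (0, 1) (1, 0)
  have h3 := hh_move hu (1, 0) (0, 1)
  have h4 := hh_move hu (0, 1) (0, 1)
  rw [hh_right, hh_left] at h1
  rw [hh_right, hh_left'] at h2
  rw [hh_right', hh_left] at h3
  rw [hh_right', hh_left'] at h4
  refine ⟨by rw [h1, star_star], ?_, ?_, ?_⟩
  · rw [h2, star_mul, star_star, hg, mul_assoc, mul_inv_cancel₀ hg0, mul_one]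
  · rw [← star_star (u⁻¹ (0, 1)).1, ← h3, star_mul, hg]
  · have h5 := congrArg star h4
    rw [star_mul, hg, star_mul, star_star, hg] at h5
    rw [h5, mul_assoc, mul_inv_cancel₀ hg0, mul_one]

end unitary

section nrd

open Vale.Agent.P011.H305 Vale.Agent.P011.H428 Vale.Agent.P011.H271

variable {k K D Ω : Type} [Field k] [Field K] [StarRing K] [DivisionRing D] [StarRing D]
  [Algebra k K] [Algebra k D] [Algebra K D] [IsScalarTower k K D] {d : kˣ} {s : K} {n : ℕ}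
  [Field Ω] [Algebra K Ω] (f : D →ₐ[K] Matrix (Fin n) (Fin n) Ω)

/-- The reduced norm of an isometry is of norm one, first case. -/
theorem nrd2_unit_of_ne (hS : SetF k K D d s) (hdeg : finrank K D = n ^ 2) {g : D}
    (hg : star g = g) (hg0 : g ≠ 0) {u : (D × D) ≃ₗ[D] (D × D)} (hu : u ∈ Uh g)
    (h : (u (1, 0)).1 ≠ 0) : ∃ ν : K, nrd2 f u = algebraMap K Ω ν ∧ ν * star ν = 1 := by
  have := hS.fin
  have := hS.cen
  have hn := pos_of_deg hdeg
  obtain ⟨α, hα⟩ : ∃ α, α = (u (1, 0)).1 := ⟨_, rfl⟩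
  obtain ⟨β, hβ⟩ : ∃ β, β = (u (1, 0)).2 := ⟨_, rfl⟩
  obtain ⟨γ, hγ⟩ : ∃ γ, γ = (u (0, 1)).1 := ⟨_, rfl⟩
  obtain ⟨δ, hδ⟩ : ∃ δ, δ = (u (0, 1)).2 := ⟨_, rfl⟩
  obtain ⟨i1, i2, i3, i4⟩ := inv_entries hg hg0 hu
  have e1 := nrd2_of_ne f h
  have h' : (u⁻¹ (1, 0)).1 ≠ 0 := by rw [i1]; exact star_ne_zero.mpr h
  have e2 := nrd2_of_ne f h'
  rw [i1, i2, i3, i4] at e2
  rw [← hα] at h
  rw [← hα, ← hβ, ← hγ, ← hδ] at e1 e2
  have hgi : star g⁻¹ = g⁻¹ := by rw [star_inv₀, hg]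
  have e3 : g * star δ * g⁻¹ - g * star β * (star α)⁻¹ * (star γ * g⁻¹) =
      g * star (δ - γ * α⁻¹ * β) * g⁻¹ := by
    rw [star_sub, star_mul, star_mul, star_inv₀]
    noncomm_ring
  rw [e3, map_mul f (g * _), map_mul f g, det_mul, det_mul] at e2
  have e4 : (f g).det * (f g⁻¹).det = 1 := by
    rw [← det_mul, ← map_mul, mul_inv_cancel₀ hg0, map_one, det_one]
  obtain ⟨ν₁, hν₁⟩ := H268.exists_nrd hn hdeg f α
  obtain ⟨ν₂, hν₂⟩ := H268.exists_nrd hn hdeg f (δ - γ * α⁻¹ * β)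
  have hν₁' := H268.nrd_star hn hdeg (star_algK hS) f α hν₁
  have hν₂' := H268.nrd_star hn hdeg (star_algK hS) f (δ - γ * α⁻¹ * β) hν₂
  refine ⟨ν₁ * ν₂, by rw [e1, hν₁, hν₂, map_mul], ?_⟩
  apply (algebraMap K Ω).injective
  have e5 := nrd2_mul_inv f u
  rw [e1, e2, hν₁, hν₂, hν₁', hν₂'] at e5
  rw [map_one, star_mul', map_mul, map_mul, map_mul, ← e5]
  linear_combination (-(algebraMap K Ω ν₁ * algebraMap K Ω ν₂ * algebraMap K Ω (star ν₁) *
    algebraMap K Ω (star ν₂))) * e4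

/-- An isometry without zero entries in the first column. -/
theorem exists_mix (hS : SetF k K D d s) {g : D} (hg : star g = g) (hg0 : g ≠ 0) :
    ∃ u ∈ Uh g, (u (1, 0)).1 ≠ 0 ∧ (u (0, 1)).1 ≠ 0 := by
  obtain ⟨S, hSd⟩ : ∃ S : D, S = algebraMap K D s := ⟨_, rfl⟩
  have hSst : star S = -S := by rw [hSd, star_algK hS, hS.star_s, map_neg]
  have hS0 : S ≠ 0 := by rw [hSd]; exact (_root_.map_ne_zero _).mpr hS.s_ne
  have h2 : (2 : k) ≠ 0 := hS.two_ne
  obtain ⟨a, ha⟩ : ∃ a : D, a = (2⁻¹ : k) • (1 + g) := ⟨_, rfl⟩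
  have has : star a = a := by rw [ha, hS.star_smulk, star_add, star_one, hg]
  have h2a : a + a = 1 + g := by
    rw [ha, ← smul_add, ← two_smul k (1 + g), smul_smul, inv_mul_cancel₀ h2, one_smul]
  obtain ⟨w, hw⟩ : ∃ w : D, w = a + S := ⟨_, rfl⟩
  have hrel : w + star w = 1 + 1 * g * star 1 := by
    rw [hw, star_add, has, hSst, one_mul, star_one, mul_one, ← h2a]
    abel
  have hkey : ∀ c : D, star c = c → c ≠ S := by
    intro c hc h
    rw [h, hSst] at hc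
    exact hS0 (eq_zero_of_neg hS hc.symm)
  have hw0 : w ≠ 0 := by
    intro h
    apply hkey (-a) (by rw [star_neg, has])
    rw [hw] at h
    exact neg_eq_of_add_eq_zero_right h
  have hw1 : w ≠ 1 := by
    intro h
    apply hkey (1 - a) (by rw [star_sub, star_one, has])
    rw [hw] at h
    rw [← h]
    abel
  refine ⟨qr g 1 w hw0 hrel, qr_mem hg hw0 hrel, ?_, ?_⟩
  · rw [qr_apply]
    change (1 : D) - (1 - 0 * g * star 1) * w⁻¹ ≠ 0
    rw [zero_mul, zero_mul, sub_zero, one_mul]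
    intro h
    apply hw1
    rw [← inv_inv w, ← sub_eq_zero.mp h, inv_one]
  · rw [qr_apply]
    change (0 : D) - (0 - 1 * g * star 1) * w⁻¹ ≠ 0
    rw [one_mul, star_one, mul_one, zero_sub, zero_sub, neg_mul, neg_neg]
    exact mul_ne_zero hg0 (inv_ne_zero hw0)

/-- **The reduced norm of an isometry is of norm one.** -/
theorem nrd2_unit (hS : SetF k K D d s) (hdeg : finrank K D = n ^ 2) {g : D}
    (hg : star g = g) (hg0 : g ≠ 0) {u : (D × D) ≃ₗ[D] (D × D)} (hu : u ∈ Uh g) :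
    ∃ ν : K, nrd2 f u = algebraMap K Ω ν ∧ ν * star ν = 1 := by
  by_cases h : (u (1, 0)).1 = 0
  · obtain ⟨r, hr, hr1, hr2⟩ := exists_mix hS hg hg0
    obtain ⟨ν₁, h1, h1'⟩ := nrd2_unit_of_ne f hS hdeg hg hg0 hr hr1
    have h3 : ((r * u) (1, 0)).1 ≠ 0 := by
      change (r (u (1, 0))).1 ≠ 0
      rw [map_eq r (u (1, 0)), h, zero_mul, zero_add]
      refine mul_ne_zero ?_ hr2
      intro h4
      have h5 : u (1, 0) = 0 := Prod.ext h h4
      have h6 : ((1, 0) : D × D) = 0 := u.injective (by rw [h5, map_zero])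
      exact one_ne_zero (congrArg Prod.fst h6)
    obtain ⟨ν₂, h2, h2'⟩ := nrd2_unit_of_ne f hS hdeg hg hg0 (mul_mem hr hu) h3
    have hν₁ : ν₁ ≠ 0 := left_ne_zero_of_mul_eq_one h1'
    refine ⟨ν₂ / ν₁, ?_, ?_⟩
    · rw [nrd2_mul, h1] at h2
      rw [map_div₀, ← h2, mul_div_cancel_left₀]
      exact (_root_.map_ne_zero _).mpr hν₁
    · rw [star_div₀, div_mul_div_comm, h1', h2', div_one]
  · exact nrd2_unit_of_ne f hS hdeg hg hg0 hu h

/-- The diagonal isometry. -/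
theorem exists_diag {g t t' : D} (ht : t * star t = 1) (ht' : t' * g * star t' = g)
    (hg0 : g ≠ 0) : ∃ u ∈ Uh g, IsDiag t t' u := by
  have h0 : t ≠ 0 := left_ne_zero_of_mul_eq_one ht
  have h0' : t' ≠ 0 := by
    rintro rfl
    rw [zero_mul, zero_mul] at ht'
    exact hg0 ht'.symm
  let e : ∀ a : D, a ≠ 0 → D ≃ₗ[D] D := fun a ha =>
    { LinearMap.toSpanSingleton D D a with
      invFun := fun x => x * a⁻¹
      left_inv := fun x => by
        change x * a * a⁻¹ = x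
        rw [mul_assoc, mul_inv_cancel₀ ha, mul_one]
      right_inv := fun x => by
        change x * a⁻¹ * a = x
        rw [mul_assoc, inv_mul_cancel₀ ha, mul_one] }
  let u : (D × D) ≃ₗ[D] (D × D) := (e t h0).prodCongr (e t' h0')
  have hu : ∀ x, u x = (x.1 * t, x.2 * t') := fun x => rfl
  refine ⟨u, fun x y => ?_, ?_, ?_⟩
  · rw [hu, hu, hh, hh]
    change x.1 * t * star (y.1 * t) + x.2 * t' * g * star (y.2 * t') = _
    rw [star_mul, star_mul]
    calc x.1 * t * (star t * star y.1) + x.2 * t' * g * (star t' * star y.2)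
        = x.1 * (t * star t) * star y.1 + x.2 * (t' * g * star t') * star y.2 := by
          noncomm_ring
      _ = _ := by rw [ht, ht', mul_one]
  · rw [hu]
    simp
  · rw [hu]
    simp

/-- Every isometry becomes of reduced norm one after a change of the second vector. -/
theorem exists_lift [GFF k] (hS : SetF k K D d s) (hdeg : finrank K D = n ^ 2) {g : D}
    (hg : star g = g) (hg0 : g ≠ 0) {u : (D × D) ≃ₗ[D] (D × D)} (hu : u ∈ Uh g) :
    ∃ t' : D, ∃ l ∈ Uh g, IsDiag 1 t' l ∧ u * l ∈ G0 f g := by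
  obtain ⟨ν, hν, hν'⟩ := nrd2_unit f hS hdeg hg hg0 hu
  obtain ⟨t', ht', htn⟩ := exists_unit_nrd hS hdeg f hg hg0 (δ := star ν) (by
    rw [star_star, mul_comm]; exact hν')
  obtain ⟨l, hl, hld⟩ := exists_diag (t := 1) (by rw [star_one, mul_one]) ht' hg0
  refine ⟨t', l, hl, hld, mul_mem hu hl, ?_⟩
  rw [nrd2_mul, hν, nrd2_diag f hld, map_one, det_one, one_mul, htn, ← map_mul, hν', map_one]

/-- A diagonal isometry of the second vector is balanced by one of the first vector. -/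
theorem exists_balance [GFF k] (hS : SetF k K D d s) (hdeg : finrank K D = n ^ 2) {g : D}
    (hg : star g = g) (hg0 : g ≠ 0) {c : D} (hc : c * g * star c = g) :
    ∃ a : D, a * star a = 1 ∧ ∀ u, IsDiag a c u → u ∈ Uh g → u ∈ G0 f g := by
  have := hS.fin
  have := hS.cen
  have hn := pos_of_deg hdeg
  obtain ⟨ν, hν⟩ := H268.exists_nrd hn hdeg f c
  have hν' := H268.nrd_star hn hdeg (star_algK hS) f c hν
  have h1 : ν * star ν = 1 := by
    have h2 := congrArg (fun x => (f x).det) hc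
    simp only [map_mul, det_mul, hν, hν'] at h2
    have h3 : (f g).det ≠ 0 := det_ne_zero_of f hg0
    apply (algebraMap K Ω).injective
    rw [map_mul, map_one]
    have h4 : (algebraMap K Ω ν * algebraMap K Ω (star ν) - 1) * (f g).det = 0 := by
      linear_combination h2
    exact sub_eq_zero.mp ((mul_eq_zero.mp h4).resolve_right h3)
  obtain ⟨a, ha, han⟩ := exists_unit_nrd hS hdeg f (h0 := 1) (star_one D) one_ne_zero (δ := star ν)
    (by rw [star_star, mul_comm]; exact h1)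
  refine ⟨a, by rwa [mul_one] at ha, fun u hu hu' => ⟨hu', ?_⟩⟩
  rw [nrd2_diag f hu, han, hν, ← map_mul, mul_comm, h1, map_one]

end nrd

end Vale.Agent.P011.H699
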