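import Mathlib

/-!
# The module of a unit of a locally compact ring is continuous
-/

open MeasureTheory Filter Topology Set
open scoped ENNReal NNReal Pointwise

namespace Vale.Agent.P011.H699

section

variable {E : Type*} [Ring E] [TopologicalSpace E] [IsTopologicalRing E] [LocallyCompactSpace E]

/-- near `1` the module is less than any number greater than `1` -/
theorem eventually_distribHaarChar_lt {a : ℝ≥0} (ha : 1 < a) :
    ∀ᶠ u : Eˣ in 𝓝 1, distribHaarChar E u < a := by
  borelize E
  let μ : Measure E := Measure.addHaar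
  obtain ⟨K, hKc, hK⟩ := exists_compact_mem_nhds (0 : E)
  have hK0 : μ K ≠ 0 := (Measure.measure_pos_of_mem_nhds μ hK).ne'
  have hKt : μ K ≠ ∞ := hKc.measure_lt_top.ne
  have hlt : μ K < a * μ K := by
    have h1 : (1 : ℝ≥0∞) < a := by exact_mod_cast ha
    calc μ K = 1 * μ K := (one_mul _).symm
      _ < a * μ K := (ENNReal.mul_lt_mul_iff_left hK0 hKt).2 h1
  obtain ⟨V, hKV, hVo, hV⟩ := K.exists_isOpen_lt_of_lt _ hlt
  have h1 : ∀ᶠ u : Eˣ in 𝓝 1, ∀ x ∈ K, (u : E) * x ∈ V := by
    refine hKc.eventually_forall_of_forall_eventually fun x hx => ?_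
    have h2 : Continuous fun z : Eˣ × E => (z.1 : E) * z.2 :=
      (Units.continuous_val.comp continuous_fst).mul continuous_snd
    refine (h2.tendsto ((1 : Eˣ), x)).eventually_mem (hVo.mem_nhds ?_)
    simpa using hKV hx
  filter_upwards [h1] with u hu
  have h2 : (distribHaarChar E u : ℝ≥0∞) * μ K < a * μ K := by
    rw [distribHaarChar_mul μ u K]
    refine (measure_mono ?_).trans_lt hV
    rintro _ ⟨x, hx, rfl⟩
    exact hu x hx
  have h3 := (ENNReal.mul_lt_mul_iff_left hK0 hKt).1 h2
  exact_mod_cast h3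

/-- **The module is continuous on the unit group.** -/
theorem continuous_distribHaarChar : Continuous fun u : Eˣ => distribHaarChar E u := by
  have h1 : Tendsto (fun u : Eˣ => distribHaarChar E u) (𝓝 1) (𝓝 1) := by
    refine tendsto_order.2 ⟨fun a ha => ?_, fun a ha => eventually_distribHaarChar_lt ha⟩
    rcases eq_or_ne a 0 with rfl | h0
    · exact Eventually.of_forall fun u => distribHaarChar_pos
    · have ha' : 1 < a⁻¹ := (one_lt_inv₀ (pos_iff_ne_zero.2 h0)).2 ha
      have h2 : Tendsto (fun u : Eˣ => u⁻¹) (𝓝 1) (𝓝 1) := by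
        have := (continuous_inv : Continuous fun u : Eˣ => u⁻¹).tendsto 1
        simpa using this
      filter_upwards [h2.eventually (eventually_distribHaarChar_lt ha')] with u hu
      rw [map_inv] at hu
      exact (inv_lt_inv₀ distribHaarChar_pos (pos_iff_ne_zero.2 h0)).1 hu
  rw [continuous_iff_continuousAt]
  intro u
  have h2 : Tendsto (fun v : Eˣ => u⁻¹ * v) (𝓝 u) (𝓝 1) := by
    have := (continuous_const_mul u⁻¹).tendsto u
    simpa using this
  have h3 : Tendsto (fun v : Eˣ => distribHaarChar E u * distribHaarChar E (u⁻¹ * v)) (𝓝 u)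
      (𝓝 (distribHaarChar E u * 1)) := tendsto_const_nhds.mul (h1.comp h2)
  rw [mul_one] at h3
  refine h3.congr fun v => ?_
  rw [← map_mul, mul_inv_cancel_left]

end

end Vale.Agent.P011.H699
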