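import Vale.Agent.P011.H699.DiagMautner

/-!
# Conjugation Mautner: weighted measures

`ν t a` (`t` along a filter, `a` in a finite `Q`-set `A`) measures on `G`, equivariant under
conjugation by a countable group `Γ` coloured by `c : Γ →* Q` and asymptotically bounded by a
multiple of Haar measure.  If `i γ` comes arbitrarily close to a normal subgroup `SL_n(F)` with
`c γ = ρ`, then `∫ φ d(ν t (ρ • a)) - ∫ φ d(ν t a) → 0` for all `φ ∈ C_c(G)` supported in the set of
elements split regular at `F`.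
-/

open MeasureTheory Filter Topology Set
open scoped CompactlySupported ENNReal NNReal

namespace Vale.Agent.P011.H699

section Lim

variable {G : Type*} [Group G] [TopologicalSpace G] [IsTopologicalGroup G]
  [LocallyCompactSpace G] [T2Space G] [SecondCountableTopology G] [MeasurableSpace G]
  [BorelSpace G]

/-- passage to the limit measures along ultrafilters -/
theorem conj_colours_of_densities (μ : Measure G) [μ.IsHaarMeasure] [μ.IsMulRightInvariant]
    {T Γ Q A : Type*} (l : Filter T) [Group Γ] [Group Q] [MulAction Q A]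
    (i : Γ →* G) (c : Γ →* Q) (ν : T → A → Measure G)
    (hequiv : ∀ t a γ, (ν t a).map (fun g => i γ * g * (i γ)⁻¹) = ν t (c γ • a))
    (C : ℝ≥0)
    (hupper : ∀ a, ∀ φ : C_c(G, ℝ), (∀ g, 0 ≤ φ g) → ∀ ε : ℝ, 0 < ε → ∀ᶠ t in l,
      Integrable φ (ν t a) ∧ ∫ g, φ g ∂(ν t a) ≤ C * ∫ g, φ g ∂μ + ε)
    {X0 : Set G} (ρ : Q)
    (hM : ∀ ψ : A → G → ℝ, (∀ a, Measurable (ψ a)) → (∀ a g, |ψ a g| ≤ C) →
      (∀ γ a, ∀ᵐ g ∂μ, ψ (c γ • a) (i γ * g * (i γ)⁻¹) = ψ a g) →
      ∀ a, ∀ᵐ g ∂μ, g ∈ X0 → ψ (ρ • a) g = ψ a g)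
    (φ : C_c(G, ℝ)) (hφ : ∀ g, g ∉ X0 → φ g = 0) (a : A) :
    Tendsto (fun t => ∫ g, φ g ∂(ν t (ρ • a)) - ∫ g, φ g ∂(ν t a)) l (𝓝 0) := by
  classical
  rw [tendsto_iff_ultrafilter]
  intro U hU
  -- boundedness
  have hb : ∀ a, ∀ φ : C_c(G, ℝ), ∃ M : ℝ, ∀ᶠ t in (U : Filter T),
      Integrable φ (ν t a) ∧ |∫ x, φ x ∂(ν t a)| ≤ M := by
    intro a φ
    refine ⟨C * ∫ g, H83.absC φ g ∂μ + 1, ?_⟩
    filter_upwards [hU (hupper a (H83.absC φ) (fun g => abs_nonneg _) 1 one_pos)] with t ht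
    have hint : Integrable φ (ν t a) := by
      refine ht.1.mono φ.continuous.aestronglyMeasurable (Eventually.of_forall fun x => ?_)
      rw [H83.absC_apply, Real.norm_eq_abs, Real.norm_eq_abs, abs_abs]
    exact ⟨hint, (abs_integral_le_integral_abs).trans ht.2⟩
  choose m hreg hm using fun a => H83.exists_limit_measure U (fun t => ν t a) (hb a)
  -- upper bound for the limit
  have hle : ∀ a, m a ≤ C • μ := by
    intro a
    have := hreg a
    refine H83.le_smul_of_integral_le C fun φ hφ => ?_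
    refine le_of_forall_pos_le_add fun ε hε => ?_
    refine le_of_tendsto (hm a φ) ?_
    filter_upwards [hU (hupper a φ hφ ε hε)] with t ht
    exact ht.2
  -- equivariance of the limit
  have heq : ∀ a γ, (m a).map (H83.LR (i γ) (i γ)⁻¹) = m (c γ • a) := by
    intro a γ
    have := hreg a
    have := hreg (c γ • a)
    have hregm : ((m a).map (H83.LR (i γ) (i γ)⁻¹)).Regular :=
      Measure.Regular.map (H83.LR (i γ) (i γ)⁻¹)
    refine Measure.ext_of_integral_eq_on_compactlySupported fun ψ => ?_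
    have hTm : Measurable (H83.LR (i γ) (i γ)⁻¹) := (H83.LR (i γ) (i γ)⁻¹).measurable
    have h1 : ∀ κ : Measure G, ∫ x, ψ x ∂(κ.map (H83.LR (i γ) (i γ)⁻¹)) =
        ∫ x, H83.compH ψ (H83.LR (i γ) (i γ)⁻¹) x ∂κ := fun κ =>
      integral_map hTm.aemeasurable (f := fun x => ψ x) ψ.continuous.aestronglyMeasurable
    rw [h1]
    refine tendsto_nhds_unique (hm a (H83.compH ψ (H83.LR (i γ) (i γ)⁻¹)))
      ((hm (c γ • a) ψ).congr fun t => ?_)
    rw [← hequiv t a γ]
    exact h1 _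
  -- densities
  have hac : ∀ a, m a ≪ μ := by
    intro a
    refine Measure.AbsolutelyContinuous.mk fun s _ h0 => ?_
    have h1 := hle a s
    rw [Measure.smul_apply, h0, smul_zero] at h1
    exact le_antisymm h1 bot_le
  have hsf : ∀ a, SigmaFinite (m a) := by
    intro a
    have := hreg a
    infer_instance
  let E0 : A → G → ℝ≥0∞ := fun a => (m a).rnDeriv μ
  have hE0m : ∀ a, Measurable (E0 a) := fun a => Measure.measurable_rnDeriv _ _
  have hm1 : ∀ a, μ.withDensity (E0 a) = m a := by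
    intro a
    have := hsf a
    exact Measure.withDensity_rnDeriv_eq _ _ (hac a)
  have hE0C : ∀ a, ∀ᵐ g ∂μ, E0 a g ≤ C := by
    intro a
    refine ae_le_of_forall_setLIntegral_le_of_sigmaFinite (hE0m a) fun s hs _ => ?_
    rw [← withDensity_apply _ hs, hm1 a]
    refine (hle a s).trans ?_
    rw [Measure.smul_apply, setLIntegral_const, ENNReal.smul_def, smul_eq_mul]
  have hinv : ∀ γ a, ∀ᵐ g ∂μ, E0 (c γ • a) (i γ * g * (i γ)⁻¹) = E0 a g := by
    intro γ a
    have := hsf (c γ • a)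
    have h1 := heq a γ
    rw [← hm1, ← hm1 (c γ • a), H83.map_withDensity_homeo μ _ (H83.map_LR μ _ _) (hE0m a)] at h1
    have h2 := (withDensity_eq_iff_of_sigmaFinite ((hE0m a).comp
      (H83.LR (i γ) (i γ)⁻¹).symm.measurable).aemeasurable (hE0m _).aemeasurable).mp h1
    have h3 := (measurePreserving_conj μ (i γ)).quasiMeasurePreserving.ae h2
    filter_upwards [h3] with g hg
    rw [← hg, Function.comp_apply, H83.LR_symm_apply]
    congr 1
    group
  let ψ : A → G → ℝ := fun a g => (min (E0 a g) C).toReal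
  have hψm : ∀ a, Measurable (ψ a) := fun a =>
    ((hE0m a).min measurable_const).ennreal_toReal
  have hψC : ∀ a g, |ψ a g| ≤ C := by
    intro a g
    rw [abs_of_nonneg ENNReal.toReal_nonneg]
    exact ENNReal.toReal_le_coe_of_le_coe (min_le_right _ _)
  have hψi : ∀ γ a, ∀ᵐ g ∂μ, ψ (c γ • a) (i γ * g * (i γ)⁻¹) = ψ a g := by
    intro γ a
    filter_upwards [hinv γ a] with g hg
    change (min (E0 (c γ • a) (i γ * g * (i γ)⁻¹)) C).toReal = (min (E0 a g) C).toReal
    rw [hg]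
  have hfix := hM ψ hψm hψC hψi a
  have hint : ∀ a, ∫ g, φ g ∂(m a) = ∫ g, ψ a g * φ g ∂μ := by
    intro a
    rw [← hm1 a, integral_withDensity_eq_integral_toReal_smul (hE0m a)]
    · refine integral_congr_ae ?_
      filter_upwards [hE0C a] with g hg
      change (E0 a g).toReal • φ g = (min (E0 a g) C).toReal * φ g
      rw [min_eq_left hg, smul_eq_mul]
    · filter_upwards [hE0C a] with g hg
      exact hg.trans_lt ENNReal.coe_lt_top
  have hall : ∫ g, φ g ∂(m (ρ • a)) = ∫ g, φ g ∂(m a) := by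
    rw [hint, hint]
    refine integral_congr_ae ?_
    filter_upwards [hfix] with g hg
    by_cases hg0 : g ∈ X0
    · rw [hg hg0]
    · rw [hφ g hg0, mul_zero, mul_zero]
  have h1 := (hm (ρ • a) φ).sub (hm a φ)
  rw [hall, sub_self] at h1
  exact h1

end Lim

section Spread

open Matrix

variable {ι F : Type*} [Fintype ι] [DecidableEq ι] [Nontrivial ι] [Field F] [TopologicalSpace F]

/-- a diagonal element of `SL_n(F)` with entries of pairwise different size -/
theorem exists_spread {ϖ : F} (hϖ : ϖ ≠ 0)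
    (hpow : ∀ x : F, Tendsto (fun m : ℕ => x * ϖ ^ m) atTop (𝓝 0)) :
    ∃ z : ι → F, Spread z ∧ ∃ Z : SpecialLinearGroup ι F, (Z : Matrix ι ι F) = diagonal z := by
  classical
  let f : ι → ℤ := fun i => ((Fintype.equivFin ι i : ℕ) : ℤ)
  have hf : Function.Injective f := by
    intro a b h
    have h1 : ((Fintype.equivFin ι a : ℕ) : ℤ) = ((Fintype.equivFin ι b : ℕ) : ℤ) := h
    exact (Fintype.equivFin ι).injective (Fin.ext (Int.ofNat_inj.1 h1))
  let n : ℤ := Fintype.card ι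
  have hn : 0 < n := by
    have : 0 < Fintype.card ι := Fintype.card_pos
    exact Int.natCast_pos.2 this
  let e : ι → ℤ := fun i => n * f i - ∑ k, f k
  have he : ∑ i, e i = 0 := by
    simp only [e, Finset.sum_sub_distrib, ← Finset.mul_sum, Finset.sum_const, Finset.card_univ,
      nsmul_eq_mul, n]
    ring
  have hlt : ∀ i k, f k < f i → ∀ a : F,
      Tendsto (fun m : ℕ => a * (ϖ ^ e i / ϖ ^ e k) ^ m) atTop (𝓝 0) := by
    intro i k hik a
    obtain ⟨d, hd⟩ : ∃ d : ℕ, (d : ℤ) = n * (f i - f k) :=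
      ⟨(n * (f i - f k)).toNat, Int.toNat_of_nonneg (by nlinarith)⟩
    have hd0 : 0 < d := by
      have : 0 < n * (f i - f k) := mul_pos hn (by omega)
      omega
    have h1 : ϖ ^ e i / ϖ ^ e k = ϖ ^ d := by
      rw [← zpow_sub₀ hϖ, ← zpow_natCast, hd]
      congr 1
      simp only [e]
      ring
    have h2 : Tendsto (fun m : ℕ => d * m) atTop atTop :=
      tendsto_id.const_mul_atTop' hd0
    refine ((hpow a).comp h2).congr fun m => ?_
    rw [Function.comp_apply, h1, ← pow_mul]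
  refine ⟨fun i => ϖ ^ e i, ⟨fun i => zpow_ne_zero _ hϖ, fun i k hik => ?_⟩,
    ⟨diagonal fun i => ϖ ^ e i, ?_⟩, rfl⟩
  · rcases lt_or_gt_of_ne (hf.ne hik) with h | h
    · exact Or.inr (hlt k i h)
    · exact Or.inl (hlt i k h)
  · have h1 : ∀ s : Finset ι, ∏ k ∈ s, ϖ ^ e k = ϖ ^ ∑ k ∈ s, e k := by
      intro s
      induction s using Finset.induction_on with
      | empty => simp
      | insert a s ha ih => rw [Finset.prod_insert ha, Finset.sum_insert ha, ih, zpow_add₀ hϖ]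
    rw [det_diagonal, h1, he, zpow_zero]

omit [Nontrivial ι] [TopologicalSpace F] in
/-- conjugates of diagonal matrices by `GL_n` are conjugates by `SL_n` -/
theorem exists_sl_conj [Nonempty ι] {h : Matrix ι ι F} (hh : IsUnit h.det) :
    ∃ h' : SpecialLinearGroup ι F, ∀ (Z : SpecialLinearGroup ι F) (z : ι → F),
      (Z : Matrix ι ι F) = diagonal z →
      ((h' * Z * h'⁻¹ : SpecialLinearGroup ι F) : Matrix ι ι F) = h * diagonal z * h⁻¹ := by
  classical
  obtain ⟨i0⟩ := ‹Nonempty ι›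
  have hd : h.det ≠ 0 := hh.ne_zero
  set d : ι → F := Function.update 1 i0 (h.det)⁻¹ with hd'
  have hdet : (diagonal d).det = (h.det)⁻¹ := by
    rw [det_diagonal, hd', Finset.prod_update_of_mem (Finset.mem_univ i0)]
    simp
  have h1 : (h * diagonal d).det = 1 := by
    rw [det_mul, hdet, mul_inv_cancel₀ hd]
  obtain ⟨h', hh'⟩ : ∃ h' : SpecialLinearGroup ι F, (h' : Matrix ι ι F) = h * diagonal d :=
    ⟨⟨h * diagonal d, h1⟩, rfl⟩
  refine ⟨h', fun Z z hZ => ?_⟩
  have hu : IsUnit (diagonal d).det := by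
    rw [hdet]
    exact (inv_ne_zero hd).isUnit
  have h2 : ((h'⁻¹ : SpecialLinearGroup ι F) : Matrix ι ι F) = (diagonal d)⁻¹ * h⁻¹ := by
    have e1 : ((h'⁻¹ : SpecialLinearGroup ι F) : Matrix ι ι F) =
        adjugate (h' : Matrix ι ι F) := rfl
    rw [e1, hh', ← Matrix.mul_inv_rev, Matrix.inv_def, h1, Ring.inverse_one, one_smul]
  have e2 : ((h' * Z * h'⁻¹ : SpecialLinearGroup ι F) : Matrix ι ι F) =
    (h' : Matrix ι ι F) * (Z : Matrix ι ι F) * ((h'⁻¹ : SpecialLinearGroup ι F) :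
      Matrix ι ι F) := rfl
  rw [e2, h2, hZ, hh']
  have h3 : diagonal d * diagonal z = diagonal z * diagonal d := by
    rw [diagonal_mul_diagonal, diagonal_mul_diagonal]
    congr 1
    funext i
    exact mul_comm _ _
  rw [mul_assoc h, h3, ← mul_assoc h, mul_assoc (h * diagonal z), ← mul_assoc (diagonal d),
    Matrix.mul_nonsing_inv _ hu, one_mul]

end Spread

section Final

open Matrix

variable {G : Type*} [Group G] [TopologicalSpace G] [IsTopologicalGroup G]
  [LocallyCompactSpace G] [T2Space G] [SecondCountableTopology G] [MeasurableSpace G]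
  [BorelSpace G]

/-- **Conjugation Mautner lemma** (P6 of the pair route). -/
theorem conj_colours (μ : Measure G) [μ.IsHaarMeasure] [μ.IsMulRightInvariant]
    {T Γ Q A : Type*} (l : Filter T) [Group Γ] [Countable Γ] [Group Q] [MulAction Q A] [Finite A]
    (i : Γ →* G) (c : Γ →* Q) {N : Subgroup G} {K : Set G} (hN : Cocpt N K)
    (hNc : ∀ x ∈ N, ∃ γ : Γ, c γ = 1 ∧ i γ = x)
    (ν : T → A → Measure G)
    (hequiv : ∀ t a γ, (ν t a).map (fun g => i γ * g * (i γ)⁻¹) = ν t (c γ • a))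
    (C : ℝ≥0)
    (hupper : ∀ a, ∀ φ : C_c(G, ℝ), (∀ g, 0 ≤ φ g) → ∀ ε : ℝ, 0 < ε → ∀ᶠ t in l,
      Integrable φ (ν t a) ∧ ∫ g, φ g ∂(ν t a) ≤ C * ∫ g, φ g ∂μ + ε)
    {ι F : Type*} [Fintype ι] [DecidableEq ι] [Nontrivial ι] [Field F] [TopologicalSpace F]
    [IsTopologicalRing F] [T2Space F] [LocallyCompactSpace F] [SigmaCompactSpace F]
    {ϖ : F} (hϖ : ϖ ≠ 0) (hpow : ∀ x : F, Tendsto (fun m : ℕ => x * ϖ ^ m) atTop (𝓝 0))
    (j : SpecialLinearGroup ι F →* G) (hj : Continuous j) (hn : j.range.Normal)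
    {X0 : Set G} (hX0 : IsOpen X0)
    (hsplit : ∀ p ∈ X0, ∃ h : Matrix ι ι F, IsUnit h.det ∧
      ∀ (s : SpecialLinearGroup ι F) (z : ι → F),
        (s : Matrix ι ι F) = h * diagonal z * h⁻¹ → Commute (j s) p)
    (ρ : Q) (hρ : ∀ O ∈ 𝓝 (1 : G), ∃ γ : Γ, c γ = ρ ∧
      ∃ o ∈ O, ∃ s : SpecialLinearGroup ι F, i γ = o * j s)
    (φ : C_c(G, ℝ)) (hφ : ∀ g, g ∉ X0 → φ g = 0) (a : A) :
    Tendsto (fun t => ∫ g, φ g ∂(ν t (ρ • a)) - ∫ g, φ g ∂(ν t a)) l (𝓝 0) := by
  let _ : MeasurableSpace (SpecialLinearGroup ι F) := borel _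
  have _ : BorelSpace (SpecialLinearGroup ι F) := ⟨rfl⟩
  have hemb : IsClosedEmbedding ((↑) : SpecialLinearGroup ι F → Matrix ι ι F) :=
    SpecialLinearGroup.isClosedEmbedding_val
  have _ : LocallyCompactSpace (Matrix ι ι F) :=
    inferInstanceAs (LocallyCompactSpace (ι → ι → F))
  have _ : SigmaCompactSpace (Matrix ι ι F) :=
    inferInstanceAs (SigmaCompactSpace (ι → ι → F))
  have _ : LocallyCompactSpace (SpecialLinearGroup ι F) := hemb.locallyCompactSpace
  have _ : SigmaCompactSpace (SpecialLinearGroup ι F) := hemb.sigmaCompactSpace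
  have _ : T2Space (SpecialLinearGroup ι F) := inferInstance
  obtain ⟨z, hz, Z, hZ⟩ := exists_spread (ι := ι) hϖ hpow
  refine conj_colours_of_densities μ l i c ν hequiv C hupper ρ (X0 := X0) ?_ φ hφ a
  intro ψ hψ hC hi a
  refine conj_fixed (μ₀ := (Measure.haar : Measure (SpecialLinearGroup ι F))) i c
    (NeZero.ne _) j hj.measurable hn hX0 ?_ hρ hψ hC hi a
  intro p hp E hE hEC hleft hright s
  obtain ⟨C', hC'⟩ := hEC
  obtain ⟨h, hh, hcomm⟩ := hsplit p hp
  obtain ⟨h', hh'⟩ := exists_sl_conj hh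
  have hw : j (h' * Z * h'⁻¹) ∈ rstab μ E := by
    rw [mem_rstab]
    exact Eventually.of_forall (hright _ (hcomm _ z (hh' Z z hZ)))
  refine sl_le_rstab_of_diag hN hE hC' ?_ j hj hz hZ hw ⟨s, rfl⟩
  intro x hx g
  obtain ⟨γ, hγ, rfl⟩ := hNc x hx
  exact hleft γ hγ g

end Final

end Vale.Agent.P011.H699
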