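import Mathlib

/-!
# Abstract Mautner lemma (stand-alone, Mathlib only)

`L` is a countable group acting on a measure space `X` (think: a discrete cocompact group acting
on the left), `G` a topological group acting on `X` and commuting with `L` (think: right
translations).  If `E : X → ℝ` is bounded, measurable, `L`-invariant and invariant under a subset
`S ⊆ G`, then `E` is (almost everywhere) invariant under the closed subgroup generated by `S` and
all elements `u` with `h u h⁻¹ → 1` (`h` in `S`-words).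
-/

open MeasureTheory Filter Topology Set
open scoped ENNReal Pointwise

namespace Vale.Agent.P011.H699

set_option linter.unusedSectionVars false

section Weight

variable {L X G : Type*} [Group L] [Countable L] [MulAction L X]
  [Group G] [MulAction G X] [SMulCommClass L G X]
  [MeasurableSpace X] {μ : Measure X} [SMulInvariantMeasure L X μ] [SMulInvariantMeasure G X μ]
  [MeasurableConstSMul L X] [MeasurableConstSMul G X]

/-- number of translates of `x` in `D` -/
noncomputable def cnt (L : Type*) {X : Type*} [Group L] [MulAction L X] (D : Set X) (x : X) :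
    ℝ≥0∞ := ∑' γ : L, D.indicator (fun _ => (1 : ℝ≥0∞)) (γ • x)

/-- the weight `1_D / cnt` -/
noncomputable def wgt (L : Type*) {X : Type*} [Group L] [MulAction L X] (D : Set X) (x : X) :
    ℝ≥0∞ := D.indicator (fun _ => (1 : ℝ≥0∞)) x / cnt L D x

lemma measurable_cnt {D : Set X} (hD : MeasurableSet D) : Measurable (cnt L D) := by
  unfold cnt
  exact Measurable.tsum fun γ =>
    (measurable_const.indicator hD).comp (measurable_const_smul γ)

lemma measurable_wgt {D : Set X} (hD : MeasurableSet D) : Measurable (wgt L D) :=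
  (measurable_const.indicator hD).div (measurable_cnt hD)

lemma cnt_smul (D : Set X) (γ : L) (x : X) : cnt L D (γ • x) = cnt L D x := by
  unfold cnt
  rw [← (Equiv.mulRight γ).tsum_eq (fun δ : L => D.indicator (fun _ => (1 : ℝ≥0∞)) (δ • x))]
  refine tsum_congr fun δ => ?_
  simp [mul_smul]

lemma cnt_ne_zero {D : Set X} (hcov : ∀ x, ∃ γ : L, γ • x ∈ D) (x : X) : cnt L D x ≠ 0 := by
  obtain ⟨γ, hγ⟩ := hcov x
  unfold cnt
  intro h
  rw [ENNReal.tsum_eq_zero] at h
  have := h γ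
  simp [hγ] at this

lemma cnt_ne_top {D : Set X} (hfin : ∀ x, {γ : L | γ • x ∈ D}.Finite) (x : X) :
    cnt L D x ≠ ∞ := by
  classical
  unfold cnt
  rw [tsum_eq_sum (s := (hfin x).toFinset)]
  · refine (ENNReal.sum_lt_top.2 fun γ _ => ?_).ne
    by_cases h : γ • x ∈ D <;> simp [h]
  · intro γ hγ
    have : γ • x ∉ D := by simpa using hγ
    simp [this]

lemma tsum_wgt {D : Set X} (hcov : ∀ x, ∃ γ : L, γ • x ∈ D)
    (hfin : ∀ x, {γ : L | γ • x ∈ D}.Finite) (x : X) : ∑' γ : L, wgt L D (γ • x) = 1 := by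
  unfold wgt
  simp_rw [cnt_smul, div_eq_mul_inv]
  rw [ENNReal.tsum_mul_right]
  exact ENNReal.mul_inv_cancel (cnt_ne_zero hcov x) (cnt_ne_top hfin x)

lemma wgt_le_indicator (D : Set X) (x : X) :
    wgt L D x ≤ D.indicator (fun _ => (1 : ℝ≥0∞)) x := by
  classical
  unfold wgt
  by_cases hx : x ∈ D
  · simp only [hx, indicator_of_mem]
    refine ENNReal.div_le_of_le_mul ?_
    rw [one_mul]
    unfold cnt
    calc (1 : ℝ≥0∞) = D.indicator (fun _ => (1 : ℝ≥0∞)) ((1 : L) • x) := by simp [hx]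
      _ ≤ _ := ENNReal.le_tsum (1 : L)
  · simp [hx]

lemma wgt_ne_zero {D : Set X} (hfin : ∀ x, {γ : L | γ • x ∈ D}.Finite) {x : X} (hx : x ∈ D) :
    wgt L D x ≠ 0 := by
  unfold wgt
  simp only [hx, indicator_of_mem]
  exact ENNReal.div_ne_zero.2 ⟨one_ne_zero, cnt_ne_top hfin x⟩

/-- unfolding: for `L`-invariant `F ≥ 0` the weighted integral is invariant under `G`. -/
lemma unfold_smul {D : Set X} (hD : MeasurableSet D) (hcov : ∀ x, ∃ γ : L, γ • x ∈ D)
    (hfin : ∀ x, {γ : L | γ • x ∈ D}.Finite) {F : X → ℝ≥0∞} (hF : Measurable F)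
    (hinv : ∀ (γ : L) x, F (γ • x) = F x) (h : G) :
    ∫⁻ x, wgt L D x * F (h • x) ∂μ = ∫⁻ x, wgt L D x * F x ∂μ := by
  have hw : Measurable (wgt L D : X → ℝ≥0∞) := measurable_wgt hD
  have key : ∀ (g : G), ∫⁻ x, wgt L D x * F (g • x) ∂μ
      = ∫⁻ x, ∑' γ : L, wgt L D (γ • x) * (wgt L D (g⁻¹ • x) * F x) ∂μ := by
    intro g
    have h1 : ∫⁻ x, wgt L D x * F (g • x) ∂μ = ∫⁻ x, wgt L D (g⁻¹ • x) * F x ∂μ := by
      have := (measurePreserving_smul g μ).lintegral_comp
        (f := fun x => wgt L D (g⁻¹ • x) * F x)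
        ((hw.comp (measurable_const_smul g⁻¹)).mul hF)
      rw [← this]
      simp
    rw [h1]
    refine lintegral_congr fun x => ?_
    rw [ENNReal.tsum_mul_right, tsum_wgt hcov hfin, one_mul]
  -- exchange the two weights
  have key2 : ∀ (g : G), ∫⁻ x, ∑' γ : L, wgt L D (γ • x) * (wgt L D (g⁻¹ • x) * F x) ∂μ
      = ∫⁻ x, wgt L D x * F x ∂μ := by
    intro g
    have hm1 : Measurable fun x : X => wgt L D (g⁻¹ • x) * F x :=
      (hw.comp (measurable_const_smul g⁻¹)).mul hF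
    rw [lintegral_tsum (f := fun (γ : L) (x : X) => wgt L D (γ • x) * (wgt L D (g⁻¹ • x) * F x))
      fun γ => ((hw.comp (measurable_const_smul γ)).mul hm1).aemeasurable]
    have h2 : ∀ γ : L, ∫⁻ x, wgt L D (γ • x) * (wgt L D (g⁻¹ • x) * F x) ∂μ
        = ∫⁻ x, wgt L D x * (wgt L D (γ⁻¹ • g⁻¹ • x) * F x) ∂μ := by
      intro γ
      have := (measurePreserving_smul γ μ).lintegral_comp
        (f := fun x => wgt L D x * (wgt L D (γ⁻¹ • g⁻¹ • x) * F x))
        (hw.mul (((hw.comp (measurable_const_smul γ⁻¹)).comp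
          (measurable_const_smul g⁻¹)).mul hF))
      rw [← this]
      refine lintegral_congr fun x => ?_
      have e1 : γ⁻¹ • g⁻¹ • γ • x = g⁻¹ • x := by
        rw [smul_comm γ⁻¹ g⁻¹ (γ • x), inv_smul_smul]
      rw [e1, hinv]
    simp_rw [h2]
    rw [← lintegral_tsum
      (f := fun (γ : L) (x : X) => wgt L D x * (wgt L D (γ⁻¹ • g⁻¹ • x) * F x))
      fun γ => (hw.mul (((hw.comp (measurable_const_smul γ⁻¹)).comp
          (measurable_const_smul g⁻¹)).mul hF)).aemeasurable]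
    refine lintegral_congr fun x => ?_
    have e2 : ∑' γ : L, wgt L D (γ⁻¹ • g⁻¹ • x) = 1 := by
      rw [← tsum_wgt hcov hfin (g⁻¹ • x)]
      exact (Equiv.inv L).tsum_eq (fun γ => wgt L D (γ • g⁻¹ • x))
    rw [ENNReal.tsum_mul_left, ENNReal.tsum_mul_right, e2, one_mul]
  rw [key h, key2 h]

end Weight

section Defect

variable {L X G : Type*} [Group L] [Countable L] [MulAction L X]
  [Group G] [MulAction G X] [SMulCommClass L G X]
  [MeasurableSpace X] {μ : Measure X} [SMulInvariantMeasure L X μ] [SMulInvariantMeasure G X μ]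
  [MeasurableConstSMul L X] [MeasurableConstSMul G X]

/-- the weighted `L¹` distance between `E (u • ·)` and `E` -/
noncomputable def defect (L : Type*) {X G : Type*} [Group L] [MulAction L X]
    [Group G] [MulAction G X] [MeasurableSpace X] (μ : Measure X) (D : Set X)
    (E : X → ℝ) (u : G) : ℝ≥0∞ := ∫⁻ x, wgt L D x * ‖E (u • x) - E x‖ₑ ∂μ

lemma measurable_diff {E : X → ℝ} (hE : Measurable E) (u : G) :
    Measurable fun x => ‖E (u • x) - E x‖ₑ :=
  ((hE.comp (measurable_const_smul u)).sub hE).enorm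

/-- defect zero means almost everywhere invariance -/
lemma ae_eq_of_defect {D : Set X} (hD : MeasurableSet D) (hcov : ∀ x, ∃ γ : L, γ • x ∈ D)
    (hfin : ∀ x, {γ : L | γ • x ∈ D}.Finite) {E : X → ℝ} (hE : Measurable E)
    (hinv : ∀ (γ : L) x, E (γ • x) = E x) {u : G} (h : defect L μ D E u = 0) :
    ∀ᵐ x ∂μ, E (u • x) = E x := by
  unfold defect at h
  rw [lintegral_eq_zero_iff (f := fun x => wgt L D x * ‖E (u • x) - E x‖ₑ)
    ((measurable_wgt hD).mul (measurable_diff hE u))] at h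
  have hbad : μ {x | x ∈ D ∧ E (u • x) ≠ E x} = 0 := by
    refine measure_mono_null ?_ h
    rintro x ⟨hx, hne⟩
    change ¬ (wgt L D x * ‖E (u • x) - E x‖ₑ = 0)
    intro h0
    rcases mul_eq_zero.1 h0 with h1 | h1
    · exact wgt_ne_zero hfin hx h1
    · rw [enorm_eq_zero, sub_eq_zero] at h1
      exact hne h1
  have hcovB : {x | ¬ E (u • x) = E x} ⊆ ⋃ γ : L, (fun x => γ • x) ⁻¹' {x | x ∈ D ∧ E (u • x) ≠ E x} := by
    intro x hx
    obtain ⟨γ, hγ⟩ := hcov x
    refine mem_iUnion.2 ⟨γ, hγ, ?_⟩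
    change E (u • γ • x) ≠ E (γ • x)
    rw [← smul_comm γ u x, hinv, hinv]
    exact hx
  refine measure_mono_null hcovB (measure_iUnion_null fun γ => ?_)
  have hmeas : MeasurableSet {x | x ∈ D ∧ E (u • x) ≠ E x} :=
    hD.inter (measurableSet_eq_fun (hE.comp (measurable_const_smul u)) hE).compl
  rw [(measurePreserving_smul γ μ).measure_preimage hmeas.nullMeasurableSet]
  exact hbad

lemma defect_of_ae {D : Set X} {E : X → ℝ} {u : G} (h : ∀ᵐ x ∂μ, E (u • x) = E x) :
    defect L μ D E u = 0 := by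
  unfold defect
  rw [lintegral_congr_ae (g := fun _ => 0)]
  · simp
  · filter_upwards [h] with x hx
    simp [hx]

lemma defect_congr {D : Set X} {E : X → ℝ} {u v : G}
    (h : ∀ᵐ x ∂μ, E (u • x) = E (v • x)) : defect L μ D E u = defect L μ D E v := by
  unfold defect
  refine lintegral_congr_ae ?_
  filter_upwards [h] with x hx
  rw [hx]

lemma ae_comp {P : X → Prop} (h : ∀ᵐ x ∂μ, P x) (g : G) : ∀ᵐ x ∂μ, P (g • x) :=
  (measurePreserving_smul g μ).quasiMeasurePreserving.ae h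

/-- if `h` is in the stabiliser then `defect (h⁻¹ u h) = defect u` -/
lemma defect_conj {D : Set X} (hD : MeasurableSet D) (hcov : ∀ x, ∃ γ : L, γ • x ∈ D)
    (hfin : ∀ x, {γ : L | γ • x ∈ D}.Finite) {E : X → ℝ} (hE : Measurable E)
    (hinv : ∀ (γ : L) x, E (γ • x) = E x) {h : G} (hh : ∀ᵐ x ∂μ, E (h • x) = E x) (u : G) :
    defect L μ D E (h⁻¹ * u * h) = defect L μ D E u := by
  unfold defect
  rw [← unfold_smul (μ := μ) hD hcov hfin (measurable_diff hE u) _ h]
  · refine lintegral_congr_ae ?_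
    have h2 := ae_comp hh (h⁻¹ * u * h)
    filter_upwards [hh, h2] with x hx hx2
    have e : u • h • x = h • (h⁻¹ * u * h) • x := by
      simp [mul_smul]
    rw [e, hx, hx2]
  · intro γ x
    rw [← smul_comm γ u x, hinv, hinv]

end Defect

section Top

variable {L X G : Type*} [Group L] [Countable L] [MulAction L X]
  [Group G] [TopologicalSpace G] [IsTopologicalGroup G] [MulAction G X] [SMulCommClass L G X]
  [TopologicalSpace X] [R1Space X] [MeasurableSpace X] [BorelSpace X]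
  [ContinuousSMul G X] [MeasurableConstSMul L X]
  {μ : Measure X} [IsLocallyFiniteMeasure μ] [μ.InnerRegularCompactLTTop]
  [SMulInvariantMeasure L X μ] [SMulInvariantMeasure G X μ]

/-- `defect` is continuous at `1` -/
lemma tendsto_defect {D D' : Set X} (hD' : MeasurableSet D')
    (hfinD' : μ D' ≠ ∞) {W : Set G} (hW : W ∈ 𝓝 (1 : G))
    (hWD : ∀ w ∈ W, ∀ x ∈ D, w • x ∈ D')
    {E : X → ℝ} (hE : Measurable E) {C : ℝ} (hC : ∀ x, |E x| ≤ C) :
    Tendsto (fun u : G => defect L μ D E u) (𝓝 1) (𝓝 0) := by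
  let _ : MeasurableSpace G := borel G
  have _ : BorelSpace G := ⟨rfl⟩
  have hDD' : D ⊆ D' := by
    intro x hx
    simpa using hWD 1 (mem_of_mem_nhds hW) x hx
  have hmem : MemLp (D'.indicator E) 1 μ := by
    refine memLp_one_iff_integrable.2 ?_
    refine Measure.integrableOn_of_bounded (M := C) hfinD' hE.aestronglyMeasurable ?_ |>.integrable_indicator hD'
    exact Eventually.of_forall fun x => by simpa using hC x
  have _ : Fact ((1 : ℝ≥0∞) ≤ 1) := ⟨le_rfl⟩
  have _ : Fact ((1 : ℝ≥0∞) ≠ ∞) := ⟨by simp⟩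
  set F : Lp ℝ 1 μ := hmem.toLp _ with hF
  have hcont : Tendsto (fun u : G => ‖DomMulAct.mk u • F - F‖ₑ) (𝓝 1) (𝓝 0) := by
    have h1 : Continuous fun u : G => DomMulAct.mk u • F - F :=
      ((DomMulAct.continuous_mk).smul continuous_const).sub continuous_const
    have h2 : Tendsto (fun u : G => ‖DomMulAct.mk u • F - F‖ₑ) (𝓝 1)
        (𝓝 ‖DomMulAct.mk (1 : G) • F - F‖ₑ) := (h1.enorm).tendsto 1
    simpa using h2
  refine tendsto_of_tendsto_of_tendsto_of_le_of_le' tendsto_const_nhds hcont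
    (Eventually.of_forall fun u => bot_le) ?_
  filter_upwards [hW] with u hu
  have e1 : DomMulAct.mk u • F - F
      = ((hmem.comp_measurePreserving (measurePreserving_smul u μ)).sub hmem).toLp
        ((D'.indicator E ∘ fun x => u • x) - D'.indicator E) := by
    rw [MemLp.toLp_sub (hmem.comp_measurePreserving (measurePreserving_smul u μ)) hmem]
    rfl
  rw [e1, Lp.enorm_toLp, eLpNorm_one_eq_lintegral_enorm]
  unfold defect
  refine lintegral_mono fun x => ?_
  by_cases hx : x ∈ D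
  · have h1 : wgt L D x ≤ 1 := (wgt_le_indicator D x).trans (by simp [hx])
    have h2 : x ∈ D' := hDD' hx
    have h3 : u • x ∈ D' := hWD u hu x hx
    calc wgt L D x * ‖E (u • x) - E x‖ₑ ≤ 1 * ‖E (u • x) - E x‖ₑ := by gcongr
      _ = _ := by simp [h2, h3]
  · have h1 : wgt L D x = 0 := le_antisymm ((wgt_le_indicator D x).trans (by simp [hx])) bot_le
    simp [h1]

/-- If `E` is invariant under `h` for `h ∈ S` (all `h` from a filter) and `h u h⁻¹ → 1` then `E` is
invariant under `u`. -/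
theorem mautner {D D' : Set X} (hD : MeasurableSet D) (hD' : MeasurableSet D')
    (hfinD' : μ D' ≠ ∞) {W : Set G} (hW : W ∈ 𝓝 (1 : G))
    (hWD : ∀ w ∈ W, ∀ x ∈ D, w • x ∈ D')
    (hcov : ∀ x, ∃ γ : L, γ • x ∈ D) (hfin : ∀ x, {γ : L | γ • x ∈ D}.Finite)
    {E : X → ℝ} (hE : Measurable E) {C : ℝ} (hC : ∀ x, |E x| ≤ C)
    (hinv : ∀ (γ : L) x, E (γ • x) = E x)
    {ι : Type*} {l : Filter ι} [l.NeBot] (h : ι → G) (hh : ∀ i, ∀ᵐ x ∂μ, E (h i • x) = E x)
    {u : G} (hu : Tendsto (fun i => h i * u * (h i)⁻¹) l (𝓝 1)) :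
    ∀ᵐ x ∂μ, E (u • x) = E x := by
  refine ae_eq_of_defect (L := L) hD hcov hfin hE hinv ?_
  have h1 : Tendsto (fun i => defect L μ D E (h i * u * (h i)⁻¹)) l (𝓝 0) :=
    (tendsto_defect hD' hfinD' hW hWD hE hC).comp hu
  have h2 : ∀ i, defect L μ D E (h i * u * (h i)⁻¹) = defect L μ D E u := by
    intro i
    have h3 : ∀ᵐ x ∂μ, E ((h i)⁻¹ • x) = E x := by
      have := ae_comp (hh i) (h i)⁻¹
      filter_upwards [this] with x hx
      rw [← hx, smul_inv_smul]
    have := defect_conj (μ := μ) (L := L) hD hcov hfin hE hinv h3 u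
    simpa using this
  simp_rw [h2] at h1
  exact tendsto_nhds_unique tendsto_const_nhds h1

/-- the stabiliser of `E` modulo null sets, as a subgroup -/
def stab (G : Type*) {X : Type*} [Group G] [MulAction G X] [MeasurableSpace X] (μ : Measure X)
    [SMulInvariantMeasure G X μ] [MeasurableConstSMul G X] (E : X → ℝ) : Subgroup G where
  carrier := {u | ∀ᵐ x ∂μ, E (u • x) = E x}
  one_mem' := by simp
  mul_mem' := by
    intro a b ha hb
    change ∀ᵐ x ∂μ, E (a • x) = E x at ha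
    change ∀ᵐ x ∂μ, E (b • x) = E x at hb
    change ∀ᵐ x ∂μ, E ((a * b) • x) = E x
    have := ae_comp ha b
    filter_upwards [hb, this] with x hx hx2
    rw [mul_smul, hx2, hx]
  inv_mem' := by
    intro a ha
    change ∀ᵐ x ∂μ, E (a • x) = E x at ha
    change ∀ᵐ x ∂μ, E (a⁻¹ • x) = E x
    have := ae_comp ha a⁻¹
    filter_upwards [this] with x hx
    rw [← hx, smul_inv_smul]

lemma mem_stab {E : X → ℝ} {u : G} : u ∈ stab G μ E ↔ ∀ᵐ x ∂μ, E (u • x) = E x := Iff.rfl

/-- the stabiliser is closed -/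
theorem isClosed_stab {D D' : Set X} (hD : MeasurableSet D) (hD' : MeasurableSet D')
    (hfinD' : μ D' ≠ ∞) {W : Set G} (hW : W ∈ 𝓝 (1 : G))
    (hWD : ∀ w ∈ W, ∀ x ∈ D, w • x ∈ D')
    (hcov : ∀ x, ∃ γ : L, γ • x ∈ D) (hfin : ∀ x, {γ : L | γ • x ∈ D}.Finite)
    {E : X → ℝ} (hE : Measurable E) {C : ℝ} (hC : ∀ x, |E x| ≤ C)
    (hinv : ∀ (γ : L) x, E (γ • x) = E x) : IsClosed (stab G μ E : Set G) := by
  refine isClosed_of_closure_subset fun v hv => ?_
  rw [mem_closure_iff_nhdsWithin_neBot] at hv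
  change ∀ᵐ x ∂μ, E (v • x) = E x
  refine ae_eq_of_defect (L := L) hD hcov hfin hE hinv ?_
  have h0 : Tendsto (fun u : G => u⁻¹ * v) (𝓝[(stab G μ E : Set G)] v) (𝓝 1) := by
    have : Tendsto (fun u : G => u⁻¹ * v) (𝓝 v) (𝓝 (v⁻¹ * v)) :=
      (continuous_inv.mul continuous_const).tendsto v
    rw [inv_mul_cancel] at this
    exact this.mono_left nhdsWithin_le_nhds
  have h1 := (tendsto_defect (L := L) hD' hfinD' hW hWD hE hC).comp h0
  have h2 : ∀ᶠ u in 𝓝[(stab G μ E : Set G)] v, defect L μ D E (u⁻¹ * v) = defect L μ D E v := by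
    filter_upwards [self_mem_nhdsWithin] with u hu
    refine defect_congr ?_
    have := ae_comp (hu : ∀ᵐ x ∂μ, E (u • x) = E x) (u⁻¹ * v)
    filter_upwards [this] with x hx
    rw [← hx, smul_smul, mul_inv_cancel_left]
  have h3 : Tendsto (fun _ : G => defect L μ D E v) (𝓝[(stab G μ E : Set G)] v) (𝓝 0) :=
    h1.congr' h2
  exact tendsto_nhds_unique tendsto_const_nhds h3

end Top

section GroupForm

open MulOpposite

/-!
### Group form

`G` a locally compact, second countable, unimodular group, `N` a countable subgroup, `K` a compact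
set with `N K = G` and `N ∩ K K⁻¹` finite (so `N` is discrete and cocompact).
-/

variable {G : Type*} [Group G] [TopologicalSpace G] [IsTopologicalGroup G] [LocallyCompactSpace G]
  [T2Space G] [MeasurableSpace G] [BorelSpace G]
  {μ : Measure G} [IsFiniteMeasureOnCompacts μ] [μ.InnerRegularCompactLTTop]
  [μ.IsMulLeftInvariant] [μ.IsMulRightInvariant]

/-- almost everywhere right stabiliser of `E` -/
def rstab (μ : Measure G) [μ.IsMulRightInvariant] (E : G → ℝ) : Subgroup G where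
  carrier := {u | ∀ᵐ x ∂μ, E (x * u) = E x}
  one_mem' := by simp
  mul_mem' := by
    intro a b ha hb
    change ∀ᵐ x ∂μ, E (x * a) = E x at ha
    change ∀ᵐ x ∂μ, E (x * b) = E x at hb
    change ∀ᵐ x ∂μ, E (x * (a * b)) = E x
    have h2 : ∀ᵐ x ∂μ, E (x * a * b) = E (x * a) :=
      (measurePreserving_mul_right μ a).quasiMeasurePreserving.ae hb
    filter_upwards [ha, h2] with x hx hx2
    rw [← mul_assoc, hx2, hx]
  inv_mem' := by
    intro a ha
    change ∀ᵐ x ∂μ, E (x * a) = E x at ha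
    change ∀ᵐ x ∂μ, E (x * a⁻¹) = E x
    have h2 : ∀ᵐ x ∂μ, E (x * a⁻¹ * a) = E (x * a⁻¹) :=
      (measurePreserving_mul_right μ a⁻¹).quasiMeasurePreserving.ae ha
    filter_upwards [h2] with x hx
    rw [← hx, inv_mul_cancel_right]

lemma mem_rstab {E : G → ℝ} {u : G} : u ∈ rstab μ E ↔ ∀ᵐ x ∂μ, E (x * u) = E x := Iff.rfl

/-- data of a discrete cocompact subgroup in the form used here -/
structure Cocpt (N : Subgroup G) (K : Set G) : Prop where
  countable : Countable N
  compact : IsCompact K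
  cover : ∀ x : G, ∃ γ ∈ N, γ * x ∈ K
  finite : ∀ x : G, {γ : N | (γ : G) * x ∈ K}.Finite

variable {N : Subgroup G} {K : Set G}

theorem rstab_closed (hN : Cocpt N K) {E : G → ℝ} (hE : Measurable E) {C : ℝ}
    (hC : ∀ x, |E x| ≤ C) (hinv : ∀ γ ∈ N, ∀ x, E (γ * x) = E x) :
    IsClosed (rstab μ E : Set G) := by
  have := hN.countable
  obtain ⟨W, hWc, hW⟩ := exists_compact_mem_nhds (1 : G)
  have hKW : IsCompact (K * W) := hN.compact.mul hWc
  have h1 := isClosed_stab (L := N) (G := Gᵐᵒᵖ) (μ := μ) (D := K) (D' := K * W)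
    hN.compact.measurableSet hKW.measurableSet hKW.measure_lt_top.ne
    (W := unop ⁻¹' W) (by
      have : Tendsto (unop : Gᵐᵒᵖ → G) (𝓝 1) (𝓝 1) := continuous_unop.tendsto 1
      exact this hW)
    (fun w hw x hx => Set.mul_mem_mul hx hw)
    (fun x => by
      obtain ⟨γ, hγ, hx⟩ := hN.cover x
      exact ⟨⟨γ, hγ⟩, hx⟩)
    (fun x => hN.finite x) hE hC (fun γ x => hinv γ γ.2 x)
  exact h1.preimage continuous_op

/-- **Mautner lemma**: conjugates tending to `1` -/
theorem mem_rstab_of_tendsto (hN : Cocpt N K) {E : G → ℝ} (hE : Measurable E) {C : ℝ}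
    (hC : ∀ x, |E x| ≤ C) (hinv : ∀ γ ∈ N, ∀ x, E (γ * x) = E x)
    {ι : Type*} {l : Filter ι} [l.NeBot] (h : ι → G) (hh : ∀ i, h i ∈ rstab μ E) {u : G}
    (hu : Tendsto (fun i => h i * u * (h i)⁻¹) l (𝓝 1)) : u ∈ rstab μ E := by
  have := hN.countable
  obtain ⟨W, hWc, hW⟩ := exists_compact_mem_nhds (1 : G)
  have hKW : IsCompact (K * W) := hN.compact.mul hWc
  have h1 := mautner (L := N) (G := Gᵐᵒᵖ) (μ := μ) (D := K) (D' := K * W)
    hN.compact.measurableSet hKW.measurableSet hKW.measure_lt_top.ne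
    (W := unop ⁻¹' W) (by
      have : Tendsto (unop : Gᵐᵒᵖ → G) (𝓝 1) (𝓝 1) := continuous_unop.tendsto 1
      exact this hW)
    (fun w hw x hx => Set.mul_mem_mul hx hw)
    (fun x => by
      obtain ⟨γ, hγ, hx⟩ := hN.cover x
      exact ⟨⟨γ, hγ⟩, hx⟩)
    (fun x => hN.finite x) hE hC (fun γ x => hinv γ γ.2 x) (l := l)
    (fun i => op (h i)⁻¹) (fun i => (rstab μ E).inv_mem (hh i)) (u := op u) (by
      have : Tendsto (fun i => op (h i * u * (h i)⁻¹)) l (𝓝 (op 1)) :=
        (continuous_op.tendsto 1).comp hu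
      refine this.congr fun i => ?_
      simp [mul_assoc])
  exact h1

/-- powers version -/
theorem mem_rstab_of_pow (hN : Cocpt N K) {E : G → ℝ} (hE : Measurable E) {C : ℝ}
    (hC : ∀ x, |E x| ≤ C) (hinv : ∀ γ ∈ N, ∀ x, E (γ * x) = E x)
    {g : G} (hg : g ∈ rstab μ E) {u : G}
    (hu : Tendsto (fun m : ℕ => g ^ m * u * (g ^ m)⁻¹) atTop (𝓝 1)) : u ∈ rstab μ E :=
  mem_rstab_of_tendsto hN hE hC hinv (fun m : ℕ => g ^ m)
    (fun m => (rstab μ E).pow_mem hg m) hu

/-- the closed subgroup generated by a set of known elements is in the stabiliser -/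
theorem closure_le_rstab (hN : Cocpt N K) {E : G → ℝ} (hE : Measurable E) {C : ℝ}
    (hC : ∀ x, |E x| ≤ C) (hinv : ∀ γ ∈ N, ∀ x, E (γ * x) = E x) {S : Set G}
    (hS : S ⊆ rstab μ E) : (Subgroup.closure S).topologicalClosure ≤ rstab μ E :=
  Subgroup.topologicalClosure_minimal _ ((Subgroup.closure_le _).2 hS)
    (rstab_closed hN hE hC hinv)

/-- **Uniform colours.**  `Γ` a subgroup, `c : Γ →* R` a colouring with kernel `N` (as a subgroup of
`G`), `E r` bounded measurable densities with `E (c γ * r) (γ x) = E r x` and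
`E (r * c γ) (x γ) = E r x` for `γ ∈ Γ`.  If every colour is attained on `Γ ∩ rstab (E 1)` then all
`E r` agree almost everywhere. -/
theorem uniform_colours {R : Type*} [Group R] {Γ : Subgroup G} (c : Γ →* R)
    {E : R → G → ℝ}
    (hright : ∀ (γ : Γ) (r : R) (x : G), E (r * c γ) (x * γ) = E r x)
    (hfull : ∀ r : R, ∃ γ : Γ, c γ = r ∧ (γ : G) ∈ rstab μ (E 1)) (r : R) :
    ∀ᵐ x ∂μ, E r x = E 1 x := by
  obtain ⟨γ, hγ, hs⟩ := hfull r⁻¹
  -- `E 1 (x γ) = E (r * c γ) (x γ) = E r x`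
  rw [mem_rstab] at hs
  filter_upwards [hs] with x hx
  rw [← hx, ← hright γ r x, hγ, mul_inv_cancel]

end GroupForm

section AlmostEverywhere

/-!
### Versions with almost everywhere invariance of `E` under `N`
-/

variable {G : Type*} [Group G] [TopologicalSpace G] [IsTopologicalGroup G] [LocallyCompactSpace G]
  [T2Space G] [MeasurableSpace G] [BorelSpace G]
  {μ : Measure G} [IsFiniteMeasureOnCompacts μ] [μ.InnerRegularCompactLTTop]
  [μ.IsMulLeftInvariant] [μ.IsMulRightInvariant] {N : Subgroup G} {K : Set G}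

/-- a strictly `N`-invariant representative -/
lemma exists_strict (hN : Countable N) {E : G → ℝ} (hE : Measurable E) {C : ℝ}
    (hC : ∀ x, |E x| ≤ C) (hinv : ∀ γ ∈ N, ∀ᵐ x ∂μ, E (γ * x) = E x) :
    ∃ E' : G → ℝ, Measurable E' ∧ (∀ x, |E' x| ≤ C) ∧ (∀ γ ∈ N, ∀ x, E' (γ * x) = E' x) ∧
      ∀ᵐ x ∂μ, E' x = E x := by
  classical
  set B : Set G := {x | ∀ γ : N, E (γ * x) = E x} with hB
  have hBm : MeasurableSet B := by
    have : B = ⋂ γ : N, {x | E (γ * x) = E x} := by ext x; simp [hB]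
    rw [this]
    exact MeasurableSet.iInter fun γ =>
      measurableSet_eq_fun (hE.comp (measurable_const_mul (γ : G))) hE
  have hBae : ∀ᵐ x ∂μ, x ∈ B := by
    have : ∀ᵐ x ∂μ, ∀ γ : N, E (γ * x) = E x := ae_all_iff.2 fun γ => hinv γ γ.2
    exact this
  have hBinv : ∀ γ ∈ N, ∀ x, γ * x ∈ B ↔ x ∈ B := by
    have one : ∀ γ ∈ N, ∀ x, x ∈ B → γ * x ∈ B := by
      intro γ hγ x hx δ
      have h1 := hx (δ * ⟨γ, hγ⟩)
      have h2 := hx ⟨γ, hγ⟩
      simp only [Subgroup.coe_mul] at h1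
      rw [← mul_assoc, h1]
      exact h2.symm
    intro γ hγ x
    refine ⟨fun h => ?_, one γ hγ x⟩
    have := one γ⁻¹ (N.inv_mem hγ) _ h
    rwa [inv_mul_cancel_left] at this
  refine ⟨B.indicator E, hE.indicator hBm, ?_, ?_, ?_⟩
  · intro x
    by_cases hx : x ∈ B
    · simpa [hx] using hC x
    · simpa [hx] using (abs_nonneg _).trans (hC x)
  · intro γ hγ x
    by_cases hx : x ∈ B
    · rw [indicator_of_mem hx, indicator_of_mem ((hBinv γ hγ x).2 hx)]
      exact hx ⟨γ, hγ⟩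
    · rw [indicator_of_notMem hx, indicator_of_notMem (fun h => hx ((hBinv γ hγ x).1 h))]
  · filter_upwards [hBae] with x hx
    rw [indicator_of_mem hx]

lemma rstab_congr {E E' : G → ℝ} (h : ∀ᵐ x ∂μ, E' x = E x) : rstab μ E' = rstab μ E := by
  ext u
  rw [mem_rstab, mem_rstab]
  have h2 : ∀ᵐ x ∂μ, E' (x * u) = E (x * u) :=
    (measurePreserving_mul_right μ u).quasiMeasurePreserving.ae h
  constructor
  · intro h1
    filter_upwards [h, h1, h2] with x a b c
    rw [← c, b, a]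
  · intro h1
    filter_upwards [h, h1, h2] with x a b c
    rw [c, b, a]

theorem rstab_closed_ae (hN : Cocpt N K) {E : G → ℝ} (hE : Measurable E) {C : ℝ}
    (hC : ∀ x, |E x| ≤ C) (hinv : ∀ γ ∈ N, ∀ᵐ x ∂μ, E (γ * x) = E x) :
    IsClosed (rstab μ E : Set G) := by
  obtain ⟨E', h1, h2, h3, h4⟩ := exists_strict hN.countable hE hC hinv
  rw [← rstab_congr h4]
  exact rstab_closed hN h1 h2 h3

/-- **Mautner lemma**, almost everywhere version: if `h i` is in the right stabiliser of `E` and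
`h i * u * (h i)⁻¹ → 1` then `u` is in the right stabiliser. -/
theorem mem_rstab_of_tendsto_ae (hN : Cocpt N K) {E : G → ℝ} (hE : Measurable E) {C : ℝ}
    (hC : ∀ x, |E x| ≤ C) (hinv : ∀ γ ∈ N, ∀ᵐ x ∂μ, E (γ * x) = E x)
    {ι : Type*} {l : Filter ι} [l.NeBot] (h : ι → G) (hh : ∀ i, h i ∈ rstab μ E) {u : G}
    (hu : Tendsto (fun i => h i * u * (h i)⁻¹) l (𝓝 1)) : u ∈ rstab μ E := by
  obtain ⟨E', h1, h2, h3, h4⟩ := exists_strict hN.countable hE hC hinv
  rw [← rstab_congr h4] at hh ⊢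
  exact mem_rstab_of_tendsto hN h1 h2 h3 h hh hu

theorem mem_rstab_of_pow_ae (hN : Cocpt N K) {E : G → ℝ} (hE : Measurable E) {C : ℝ}
    (hC : ∀ x, |E x| ≤ C) (hinv : ∀ γ ∈ N, ∀ᵐ x ∂μ, E (γ * x) = E x)
    {g : G} (hg : g ∈ rstab μ E) {u : G}
    (hu : Tendsto (fun m : ℕ => g ^ m * u * (g ^ m)⁻¹) atTop (𝓝 1)) : u ∈ rstab μ E :=
  mem_rstab_of_tendsto_ae hN hE hC hinv (fun m : ℕ => g ^ m)
    (fun m => (rstab μ E).pow_mem hg m) hu

theorem closure_le_rstab_ae (hN : Cocpt N K) {E : G → ℝ} (hE : Measurable E) {C : ℝ}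
    (hC : ∀ x, |E x| ≤ C) (hinv : ∀ γ ∈ N, ∀ᵐ x ∂μ, E (γ * x) = E x) {S : Set G}
    (hS : S ⊆ rstab μ E) : (Subgroup.closure S).topologicalClosure ≤ rstab μ E :=
  Subgroup.topologicalClosure_minimal _ ((Subgroup.closure_le _).2 hS)
    (rstab_closed_ae hN hE hC hinv)

/-- **Packaged form.**  `N` discrete cocompact, `E` bounded measurable and a.e. invariant under `N`
on both sides.  If `T` is a set of elements `u` each of which is contracted by powers of an element
of `N`, then `E` is a.e. right invariant under the closed subgroup generated by `N` and `T`. -/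
theorem biinvariant_closure (hN : Cocpt N K) {E : G → ℝ} (hE : Measurable E) {C : ℝ}
    (hC : ∀ x, |E x| ≤ C) (hleft : ∀ γ ∈ N, ∀ᵐ x ∂μ, E (γ * x) = E x)
    (hright : ∀ γ ∈ N, ∀ᵐ x ∂μ, E (x * γ) = E x) {T : Set G}
    (hT : ∀ u ∈ T, ∃ g ∈ N, Tendsto (fun m : ℕ => g ^ m * u * (g ^ m)⁻¹) atTop (𝓝 1)) :
    (Subgroup.closure ((N : Set G) ∪ T)).topologicalClosure ≤ rstab μ E := by
  refine closure_le_rstab_ae hN hE hC hleft ?_
  rintro u (hu | hu)
  · exact hright u hu
  · obtain ⟨g, hg, hgu⟩ := hT u hu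
    exact mem_rstab_of_pow_ae hN hE hC hleft (hright g hg) hgu

end AlmostEverywhere

end Vale.Agent.P011.H699
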