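import Mathlib
import Vale.Agent.P011.H699.Mautner

/-!
# Weights for discrete subgroups of additive groups, and the spacing of lattices

* `lintegral_le_of_weights` : comparison of two weights of a countable subgroup;
* `exists_weight` : a discrete cocompact subgroup has a weight;
* `one_le_mod_of_sublattice` : if `d • I ⊆ Λ` for a subgroup `I ≤ Λ` of index `m` then
  `1 ≤ m * mod d`;
* `mod_eq_of_sublattice` : if `d • I = I'` for subgroups of `Λ` of index `m` and `m'` then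
  `m' = m * mod d`.
-/

open MeasureTheory Filter Topology Set
open scoped ENNReal Pointwise NNReal

namespace Vale.Agent.P011.H699

section Compare

variable {E : Type*} [AddCommGroup E] [MeasurableSpace E] [MeasurableAdd E]
  {μ : Measure E} [μ.IsAddLeftInvariant]

/-- Two functions, the first one of total mass at most one over the cosets of `L`, the second one of
total mass at least one. -/
theorem lintegral_le_of_weights (L : AddSubgroup E) [Countable L] {ψ ψ' : E → ℝ≥0∞}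
    (hψ : Measurable ψ) (hψ' : Measurable ψ')
    (h1 : ∀ x, ∑' l : L, ψ ((l : E) + x) ≤ 1) (h2 : ∀ x, 1 ≤ ∑' l : L, ψ' ((l : E) + x)) :
    ∫⁻ x, ψ x ∂μ ≤ ∫⁻ x, ψ' x ∂μ := by
  have hm : ∀ (f : E → ℝ≥0∞), Measurable f → ∀ l : L, Measurable fun x => f ((l : E) + x) :=
    fun f hf l => hf.comp (measurable_const_add _)
  calc ∫⁻ x, ψ x ∂μ ≤ ∫⁻ x, ψ x * ∑' l : L, ψ' ((l : E) + x) ∂μ := by
        refine lintegral_mono fun x => ?_
        exact le_mul_of_one_le_right zero_le (h2 x)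
    _ = ∫⁻ x, ∑' l : L, ψ x * ψ' ((l : E) + x) ∂μ := by simp_rw [ENNReal.tsum_mul_left]
    _ = ∑' l : L, ∫⁻ x, ψ x * ψ' ((l : E) + x) ∂μ :=
        lintegral_tsum fun l => (hψ.mul (hm _ hψ' l)).aemeasurable
    _ = ∑' l : L, ∫⁻ x, ψ (((-l : L) : E) + x) * ψ' x ∂μ := by
        refine tsum_congr fun l => ?_
        have h3 := lintegral_add_left_eq_self (μ := μ)
          (fun x => ψ (((-l : L) : E) + x) * ψ' x) (l : E)
        rw [← h3]
        refine lintegral_congr fun x => ?_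
        rw [AddSubgroup.coe_neg, neg_add_cancel_left]
    _ = ∑' l : L, ∫⁻ x, ψ ((l : E) + x) * ψ' x ∂μ :=
        (Equiv.neg L).tsum_eq (fun l : L => ∫⁻ x, ψ ((l : E) + x) * ψ' x ∂μ)
    _ = ∫⁻ x, (∑' l : L, ψ ((l : E) + x)) * ψ' x ∂μ := by
        have h3 : ∀ x, (∑' l : L, ψ ((l : E) + x)) * ψ' x = ∑' l : L, ψ ((l : E) + x) * ψ' x :=
          fun x => ENNReal.tsum_mul_right.symm
        simp_rw [h3]
        exact (lintegral_tsum fun l => ((hm _ hψ l).mul hψ').aemeasurable).symm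
    _ ≤ ∫⁻ x, ψ' x ∂μ := by
        refine lintegral_mono fun x => ?_
        exact mul_le_of_le_one_left zero_le (h1 x)

/-- sum over a subgroup of finite index -/
theorem tsum_weight_sub {Λ I : AddSubgroup E} [Countable Λ] (hfi : I.relIndex Λ ≠ 0)
    {ψ : E → ℝ≥0∞} (hψm : Measurable ψ) (hI : I ≤ Λ) :
    ∃ ψ' : E → ℝ≥0∞, Measurable ψ' ∧ (∫⁻ x, ψ' x ∂μ = (I.relIndex Λ : ℝ≥0∞) * ∫⁻ x, ψ x ∂μ) ∧
      ∀ x, ∑' l : I, ψ' ((l : E) + x) = ∑' l : Λ, ψ ((l : E) + x) := by
  classical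
  set I' : AddSubgroup Λ := I.addSubgroupOf Λ with hI'
  have hfi' : I'.index ≠ 0 := hfi
  have hFI : I'.FiniteIndex := ⟨hfi'⟩
  have hfin : Finite (Λ ⧸ I') := inferInstance
  have := Fintype.ofFinite (Λ ⧸ I')
  have hcard : Fintype.card (Λ ⧸ I') = I.relIndex Λ := by
    rw [← Nat.card_eq_fintype_card]
    rfl
  have hm1 : ∀ q : Λ ⧸ I', Measurable fun y : E => ψ (((q.out : Λ) : E) + y) := fun q =>
    hψm.comp (measurable_const_add _)
  refine ⟨fun x => ∑ q : Λ ⧸ I', ψ (((q.out : Λ) : E) + x),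
    Finset.measurable_fun_sum _ fun q _ => hm1 q, ?_, fun x => ?_⟩
  · rw [lintegral_finsetSum _ fun q _ => hm1 q]
    simp_rw [lintegral_add_left_eq_self (μ := μ) ψ]
    rw [Finset.sum_const, Finset.card_univ, hcard, nsmul_eq_mul]
  · let e : (Λ ⧸ I') × I' → Λ := fun p => (p.1.out : Λ) + (p.2 : Λ)
    have he : Function.Bijective e := by
      constructor
      · rintro ⟨q, y⟩ ⟨q', y'⟩ h
        change (q.out : Λ) + (y : Λ) = (q'.out : Λ) + (y' : Λ) at h
        have h1 : ∀ (q : Λ ⧸ I') (y : I'),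
            ((((q.out : Λ) + (y : Λ) : Λ)) : Λ ⧸ I') = q := by
          intro q y
          have h2 : (((q.out : Λ) : Λ) : Λ ⧸ I') = q := Quotient.out_eq q
          conv_rhs => rw [← h2]
          rw [eq_comm, QuotientAddGroup.eq, neg_add_cancel_left]
          exact y.2
        have h3 : q = q' := by rw [← h1 q y, h, h1 q' y']
        subst h3
        have h4 := add_left_cancel h
        exact Prod.ext rfl (Subtype.ext h4)
      · intro l
        have h2 : ((((l : Λ ⧸ I').out : Λ) : Λ) : Λ ⧸ I') = (l : Λ ⧸ I') := Quotient.out_eq _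
        rw [QuotientAddGroup.eq] at h2
        exact ⟨⟨(l : Λ ⧸ I'), ⟨_, h2⟩⟩, add_neg_cancel_left _ _⟩
    symm
    calc ∑' l : Λ, ψ ((l : E) + x)
        = ∑' p : (Λ ⧸ I') × I', ψ ((((p.1.out : Λ) + (p.2 : Λ) : Λ) : E) + x) :=
          ((Equiv.ofBijective e he).tsum_eq (fun l : Λ => ψ ((l : E) + x))).symm
      _ = ∑' y : I', ∑ q : Λ ⧸ I', ψ ((((q.out : Λ) + (y : Λ) : Λ) : E) + x) := by
          have h5 := ENNReal.tsum_prod (f := fun (q : Λ ⧸ I') (y : I') =>
            ψ ((((q.out : Λ) + (y : Λ) : Λ) : E) + x))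
          exact (h5.trans ENNReal.tsum_comm).trans (tsum_congr fun y => tsum_fintype _)
      _ = ∑' y : I', ∑ q : Λ ⧸ I', ψ (((q.out : Λ) : E) + (((y : Λ) : E) + x)) := by
          refine tsum_congr fun y => Finset.sum_congr rfl fun q _ => ?_
          rw [AddSubgroup.coe_add, add_assoc]
      _ = ∑' l : I, ∑ q : Λ ⧸ I', ψ (((q.out : Λ) : E) + ((l : E) + x)) :=
          (AddSubgroup.addSubgroupOfEquivOfLe hI).toEquiv.tsum_eq
            (fun l : I => ∑ q : Λ ⧸ I', ψ (((q.out : Λ) : E) + ((l : E) + x)))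

end Compare

section Exist

variable {E : Type*} [AddCommGroup E] [TopologicalSpace E] [IsTopologicalAddGroup E] [T2Space E]
  [MeasurableSpace E] [BorelSpace E] {μ : Measure E} [μ.IsAddHaarMeasure]

/-- data of a discrete cocompact subgroup of an additive group -/
structure Latt (Λ : AddSubgroup E) : Prop where
  countable : Countable Λ
  disc : ∀ K : Set E, IsCompact K → ((Λ : Set E) ∩ K).Finite
  coc : ∃ K : Set E, IsCompact K ∧ ∀ x : E, ∃ a ∈ Λ, x - a ∈ K

/-- a weight of a discrete cocompact subgroup -/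
theorem exists_weight {Λ : AddSubgroup E} (hΛ : Latt Λ) :
    ∃ ψ : E → ℝ≥0∞, Measurable ψ ∧ (∀ x, ∑' l : Λ, ψ ((l : E) + x) = 1) ∧
      (∫⁻ x, ψ x ∂μ) ≠ 0 ∧ (∫⁻ x, ψ x ∂μ) ≠ ∞ := by
  obtain ⟨K, hK, hcov⟩ := hΛ.coc
  have := hΛ.countable
  set D : Set E := K with hD
  have hcov' : ∀ x : E, ∃ γ : Multiplicative Λ, γ • x ∈ D := by
    intro x
    obtain ⟨a, ha, hx⟩ := hcov x
    refine ⟨Multiplicative.ofAdd (-⟨a, ha⟩), ?_⟩
    change ((-⟨a, ha⟩ : Λ) : E) + x ∈ K
    rw [AddSubgroup.coe_neg]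
    have : -a + x = x - a := by abel
    simpa [this] using hx
  have hfin : ∀ x : E, {γ : Multiplicative Λ | γ • x ∈ D}.Finite := by
    intro x
    have h1 : IsCompact ((fun y => y - x) '' K) := hK.image (continuous_id.sub continuous_const)
    refine Set.Finite.of_finite_image (f := fun γ : Multiplicative Λ =>
      ((Multiplicative.toAdd γ : Λ) : E)) ((hΛ.disc _ h1).subset ?_) ?_
    · rintro _ ⟨γ, hγ, rfl⟩
      refine ⟨(Multiplicative.toAdd γ : Λ).2, _, hγ, ?_⟩
      change ((Multiplicative.toAdd γ : Λ) : E) + x - x = _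
      abel
    · intro a _ b _ hab
      exact Subtype.ext hab
  have hcm : Countable (Multiplicative Λ) := inferInstanceAs (Countable Λ)
  have hmm : MeasurableConstSMul (Multiplicative Λ) E := by
    refine ⟨fun c => ?_⟩
    exact measurable_const_add ((Multiplicative.toAdd c : Λ) : E)
  have hDm : MeasurableSet D := hK.measurableSet
  refine ⟨wgt (Multiplicative Λ) D, measurable_wgt hDm, ?_, ?_, ?_⟩
  · intro x
    exact tsum_wgt hcov' hfin x
  · intro h0
    rw [lintegral_eq_zero_iff (measurable_wgt hDm)] at h0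
    -- the weight vanishes a.e.; translate
    have h1 : ∀ l : Λ, ∀ᵐ x ∂μ, wgt (Multiplicative Λ) D ((l : E) + x) = 0 := fun l =>
      (measurePreserving_add_left μ (l : E)).quasiMeasurePreserving.ae h0
    have h2 : ∀ᵐ x ∂μ, ∀ l : Λ, wgt (Multiplicative Λ) D ((l : E) + x) = 0 := ae_all_iff.2 h1
    have h3 : ∀ᵐ x ∂μ, False := by
      filter_upwards [h2] with x hx
      have h4 : ∑' l : Λ, wgt (Multiplicative Λ) D ((l : E) + x) = 1 := tsum_wgt hcov' hfin x
      simp only [hx, tsum_zero] at h4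
      exact zero_ne_one h4
    have h5 : μ = 0 := by
      rw [← ae_eq_bot]
      exact Filter.eventually_false_iff_eq_bot.1 h3
    exact (NeZero.ne μ) h5
  · have h1 : ∫⁻ x, wgt (Multiplicative Λ) D x ∂μ ≤ ∫⁻ x, D.indicator 1 x ∂μ :=
      lintegral_mono fun x => wgt_le_indicator D x
    rw [lintegral_indicator_one hDm] at h1
    exact (h1.trans_lt hK.measure_lt_top).ne

end Exist

section Spacing

variable {E : Type*} [Ring E] [TopologicalSpace E] [IsTopologicalRing E] [T2Space E]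
  [LocallyCompactSpace E] [MeasurableSpace E] [BorelSpace E]
  {μ : Measure E} [μ.IsAddHaarMeasure] [μ.Regular]

omit [T2Space E] in
/-- change of variables for the multiplication by a unit -/
theorem lintegral_units_smul (d : Eˣ) {f : E → ℝ≥0∞} (hf : Measurable f) :
    ∫⁻ x, f (((d⁻¹ : Eˣ) : E) * x) ∂μ = distribHaarChar E d * ∫⁻ x, f x ∂μ := by
  have hm : Measurable fun x : E => ((d⁻¹ : Eˣ) : E) * x :=
    (continuous_const.mul continuous_id).measurable
  have h1 : μ.map (fun x : E => ((d⁻¹ : Eˣ) : E) * x) = (distribHaarChar E d) • μ := by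
    ext s hs
    rw [Measure.map_apply hm hs, Measure.smul_apply, ENNReal.smul_def, smul_eq_mul,
      distribHaarChar_mul μ d s]
    congr 1
    ext x
    rw [mem_preimage, Set.mem_smul_set_iff_inv_smul_mem, Units.smul_def, smul_eq_mul]
  rw [← lintegral_map hf hm, h1, lintegral_smul_measure, ENNReal.smul_def, smul_eq_mul]

omit [TopologicalSpace E] [IsTopologicalRing E] [T2Space E] [LocallyCompactSpace E]
  [MeasurableSpace E] [BorelSpace E] in
/-- sums over `d • I` -/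
theorem tsum_units_smul {I J : AddSubgroup E} (d : Eˣ) (hd : ∀ x, x ∈ I ↔ (d : E) * x ∈ J)
    (ψ : E → ℝ≥0∞) (x : E) (hJ : ∀ y ∈ J, ∃ z ∈ I, (d : E) * z = y) :
    ∑' l : J, ψ (((d⁻¹ : Eˣ) : E) * ((l : E) + x)) =
      ∑' l : I, ψ ((l : E) + ((d⁻¹ : Eˣ) : E) * x) := by
  let e : I → J := fun l => ⟨(d : E) * (l : E), (hd _).1 l.2⟩
  have he : Function.Bijective e := by
    constructor
    · intro a b h
      have h1 : (d : E) * (a : E) = (d : E) * (b : E) := congrArg Subtype.val h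
      exact Subtype.ext (d.isUnit.mul_left_cancel h1)
    · rintro ⟨y, hy⟩
      obtain ⟨z, hz, h⟩ := hJ y hy
      exact ⟨⟨z, hz⟩, Subtype.ext h⟩
  rw [← (Equiv.ofBijective e he).tsum_eq]
  refine tsum_congr fun l => ?_
  change ψ (((d⁻¹ : Eˣ) : E) * ((d : E) * (l : E) + x)) = _
  rw [mul_add, ← mul_assoc, Units.inv_mul, one_mul]

/-- **Index and module.**  `Λ` a discrete cocompact subgroup of the ring `E`, `I`, `J` subgroups of
`Λ`, `I` of finite index and `d I = J`.  Then `[Λ : I] * mod d ≥ 1`, and it is equal to `[Λ : J]`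
if this is finite. -/
theorem index_mul_mod {Λ I J : AddSubgroup E} (hΛ : Latt Λ) (hI : I ≤ Λ) (hJ : J ≤ Λ)
    (hfi : I.relIndex Λ ≠ 0) (d : Eˣ) (hd : ∀ x, x ∈ I ↔ (d : E) * x ∈ J)
    (hJ' : ∀ y ∈ J, ∃ z ∈ I, (d : E) * z = y) :
    1 ≤ (I.relIndex Λ : ℝ≥0) * distribHaarChar E d ∧ (J.relIndex Λ ≠ 0 →
      (J.relIndex Λ : ℝ≥0) = (I.relIndex Λ : ℝ≥0) * distribHaarChar E d) := by
  classical
  have hc := hΛ.countable
  obtain ⟨ψ, hψm, hψ1, hψ0, hψt⟩ := exists_weight (μ := (Measure.addHaar : Measure E)) hΛ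
  set μ' : Measure E := Measure.addHaar with hμ'
  have hcJ : Countable J := (AddSubgroup.inclusion_injective hJ).countable
  obtain ⟨ψI, hψIm, hψIi, hψIs⟩ := tsum_weight_sub (μ := μ') hfi hψm hI
  have hmd : Measurable fun x : E => ((d⁻¹ : Eˣ) : E) * x :=
    (continuous_const.mul continuous_id).measurable
  have hm2 : Measurable fun x : E => ψI (((d⁻¹ : Eˣ) : E) * x) := hψIm.comp hmd
  have hi2 : ∫⁻ x, ψI (((d⁻¹ : Eˣ) : E) * x) ∂μ' =
      ((I.relIndex Λ : ℝ≥0) * distribHaarChar E d : ℝ≥0) * ∫⁻ x, ψ x ∂μ' := by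
    rw [lintegral_units_smul d hψIm, hψIi, ENNReal.coe_mul, mul_left_comm, mul_assoc]
    norm_cast
  have hs2 : ∀ x, ∑' l : J, ψI (((d⁻¹ : Eˣ) : E) * ((l : E) + x)) = 1 := by
    intro x
    rw [tsum_units_smul d hd ψI x hJ', hψIs, hψ1]
  refine ⟨?_, fun hfJ => ?_⟩
  · have hle := lintegral_le_of_weights (μ := μ') J hψm hm2 (fun x => ?_) (fun x => (hs2 x).ge)
    · rw [hi2] at hle
      have h1 : ((1 : ℝ≥0) : ℝ≥0∞) * ∫⁻ x, ψ x ∂μ' ≤
          ((I.relIndex Λ : ℝ≥0) * distribHaarChar E d : ℝ≥0) * ∫⁻ x, ψ x ∂μ' := by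
        rwa [ENNReal.coe_one, one_mul]
      have h2 := (ENNReal.mul_le_mul_iff_left hψ0 hψt).1 h1
      exact_mod_cast h2
    · rw [← hψ1 x]
      exact ENNReal.tsum_comp_le_tsum_of_injective (AddSubgroup.inclusion_injective hJ)
        (fun l : Λ => ψ ((l : E) + x))
  · obtain ⟨ψJ, hψJm, hψJi, hψJs⟩ := tsum_weight_sub (μ := μ') hfJ hψm hJ
    have hs3 : ∀ x, ∑' l : J, ψJ ((l : E) + x) = 1 := fun x => by rw [hψJs, hψ1]
    have h1 := lintegral_le_of_weights (μ := μ') J hm2 hψJm (fun x => (hs2 x).le)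
      (fun x => (hs3 x).ge)
    have h2 := lintegral_le_of_weights (μ := μ') J hψJm hm2 (fun x => (hs3 x).le)
      (fun x => (hs2 x).ge)
    have h3 := le_antisymm h2 h1
    rw [hψJi, hi2] at h3
    have h4 : ((J.relIndex Λ : ℝ≥0) : ℝ≥0∞) * ∫⁻ x, ψ x ∂μ' =
        ((I.relIndex Λ : ℝ≥0) * distribHaarChar E d : ℝ≥0) * ∫⁻ x, ψ x ∂μ' := by
      exact_mod_cast h3
    have h5 := (ENNReal.mul_left_inj hψ0 hψt).1 h4
    exact_mod_cast h5

/-- **Spacing of lattices.**  `Λ` a discrete cocompact subgroup of the ring `E`, `I` a subgroup of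
`Λ` of finite index `m`, `d` a unit with `d I ⊆ Λ`.  Then `1 ≤ m * mod d`. -/
theorem one_le_mod_of_sublattice {Λ I : AddSubgroup E} (hΛ : Latt Λ) (hI : I ≤ Λ)
    (hfi : I.relIndex Λ ≠ 0) (d : Eˣ) (hd : ∀ x ∈ I, (d : E) * x ∈ Λ) :
    1 ≤ (I.relIndex Λ : ℝ≥0) * distribHaarChar E d := by
  refine (index_mul_mod (J := I.map (AddMonoidHom.mulLeft (d : E))) hΛ hI ?_ hfi d ?_ ?_).1
  · rintro _ ⟨x, hx, rfl⟩
    exact hd x hx
  · intro x
    constructor
    · exact fun hx => ⟨x, hx, rfl⟩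
    · rintro ⟨z, hz, h⟩
      have h1 : (d : E) * z = (d : E) * x := h
      rwa [← d.isUnit.mul_left_cancel h1]
  · rintro _ ⟨x, hx, rfl⟩
    exact ⟨x, hx, rfl⟩

end Spacing

end Vale.Agent.P011.H699
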