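import Mathlib
import Vale.Agent.P011.H699.Wt

/-!
# Denominators in an order

`Λ` a subring of a ring `E`, `s ∈ E`; `colon Λ s = {x ∈ Λ | s x ∈ Λ}` and `den Λ s = [Λ : colon Λ s]`.

* `den_add`, `den_mul_left`, `den_mul_right`, `den_mul_mul` : invariance;
* `den_map` : images under injective homomorphisms;
* `den_ne_zero` : finiteness;
* `spacing` : `1 ≤ den s * den t * mod (s - t)`, `spacing_measure`, `spacing_unitary` : the same in
  terms of Haar measure;
* `den_cay` : the denominator of the Cayley transform.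
-/

open MeasureTheory Filter Topology Set
open scoped ENNReal Pointwise NNReal

namespace Vale.Agent.P011.H699

section Alg

variable {E : Type*} [Ring E]

/-- `{x ∈ Λ | s x ∈ Λ}` -/
def colon (Λ : Subring E) (s : E) : AddSubgroup E where
  carrier := {x | x ∈ Λ ∧ s * x ∈ Λ}
  zero_mem' := ⟨Λ.zero_mem, by rw [mul_zero]; exact Λ.zero_mem⟩
  add_mem' := fun {a b} ha hb => ⟨Λ.add_mem ha.1 hb.1, by
    rw [mul_add]; exact Λ.add_mem ha.2 hb.2⟩
  neg_mem' := fun {a} ha => ⟨Λ.neg_mem ha.1, by rw [mul_neg]; exact Λ.neg_mem ha.2⟩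

theorem mem_colon {Λ : Subring E} {s x : E} : x ∈ colon Λ s ↔ x ∈ Λ ∧ s * x ∈ Λ := Iff.rfl

theorem colon_le (Λ : Subring E) (s : E) : colon Λ s ≤ Λ.toAddSubgroup := fun _ hx => hx.1

/-- the denominator of `s`; it is `0` if the index is infinite -/
noncomputable def den (Λ : Subring E) (s : E) : ℕ := (colon Λ s).relIndex Λ.toAddSubgroup

variable {Λ : Subring E}

theorem colon_add {l : E} (hl : l ∈ Λ) (s : E) : colon Λ (s + l) = colon Λ s := by
  ext x
  rw [mem_colon, mem_colon]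
  refine and_congr_right fun hx => ?_
  rw [add_mul]
  exact ⟨fun h => by simpa using Λ.sub_mem h (Λ.mul_mem hl hx), fun h =>
    Λ.add_mem h (Λ.mul_mem hl hx)⟩

theorem den_add {l : E} (hl : l ∈ Λ) (s : E) : den Λ (s + l) = den Λ s := by
  rw [den, colon_add hl, den]

theorem colon_mul_left {u v : E} (hu : u ∈ Λ) (hv : v ∈ Λ) (h : v * u = 1) (s : E) :
    colon Λ (u * s) = colon Λ s := by
  ext x
  rw [mem_colon, mem_colon]
  refine and_congr_right fun hx => ?_
  constructor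
  · intro h1
    have h2 := Λ.mul_mem hv h1
    rwa [mul_assoc, ← mul_assoc v, h, one_mul] at h2
  · intro h1
    rw [mul_assoc]
    exact Λ.mul_mem hu h1

theorem den_mul_left {u v : E} (hu : u ∈ Λ) (hv : v ∈ Λ) (h : v * u = 1) (s : E) :
    den Λ (u * s) = den Λ s := by
  rw [den, colon_mul_left hu hv h, den]

/-- index of the image under an automorphism given by multiplication by a unit of `Λ` -/
theorem relIndex_of_mul {u v : E} (hu : u ∈ Λ) (hv : v ∈ Λ) (h : v * u = 1) (h' : u * v = 1)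
    {I J : AddSubgroup E} (hIJ : ∀ x ∈ Λ, x ∈ I ↔ u * x ∈ J) :
    I.relIndex Λ.toAddSubgroup = J.relIndex Λ.toAddSubgroup := by
  let e : Λ.toAddSubgroup ≃+ Λ.toAddSubgroup :=
    { toFun := fun x => ⟨u * x, Λ.mul_mem hu x.2⟩
      invFun := fun x => ⟨v * x, Λ.mul_mem hv x.2⟩
      left_inv := fun x => Subtype.ext (by
        change v * (u * (x : E)) = x
        rw [← mul_assoc, h, one_mul])
      right_inv := fun x => Subtype.ext (by
        change u * (v * (x : E)) = x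
        rw [← mul_assoc, h', one_mul])
      map_add' := fun x y => Subtype.ext (by
        change u * ((x : E) + y) = u * x + u * y
        rw [mul_add]) }
  rw [AddSubgroup.relIndex, AddSubgroup.relIndex]
  have h1 : I.addSubgroupOf Λ.toAddSubgroup = (J.addSubgroupOf Λ.toAddSubgroup).comap
      (e : Λ.toAddSubgroup →+ Λ.toAddSubgroup) := by
    ext x
    rw [AddSubgroup.mem_comap, AddSubgroup.mem_addSubgroupOf, AddSubgroup.mem_addSubgroupOf]
    exact hIJ x x.2
  rw [h1]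
  exact AddSubgroup.index_comap_of_surjective _ e.surjective

theorem den_mul_right {u v : E} (hu : u ∈ Λ) (hv : v ∈ Λ) (h : v * u = 1) (h' : u * v = 1)
    (s : E) : den Λ (s * u) = den Λ s := by
  refine relIndex_of_mul hu hv h h' fun x hx => ?_
  rw [mem_colon, mem_colon, mul_assoc]
  exact ⟨fun hh => ⟨Λ.mul_mem hu hx, hh.2⟩, fun hh => ⟨hx, hh.2⟩⟩

/-- invariance under multiplication by units of the order on both sides -/
theorem den_mul_mul {u v u' v' : E} (hu : u ∈ Λ) (hv : v ∈ Λ) (h : v * u = 1)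
    (hu' : u' ∈ Λ) (hv' : v' ∈ Λ) (h' : v' * u' = 1) (h'' : u' * v' = 1) (s : E) :
    den Λ (u * s * u') = den Λ s := by
  rw [den_mul_right hu' hv' h' h'', den_mul_left hu hv h]

/-- images under injective homomorphisms -/
theorem den_map {A : Type*} [Ring A] (j : A →+* E) (hj : Function.Injective j) (Lam : Subring A)
    (s : A) : den (Lam.map j) (j s) = den Lam s := by
  have h1 : colon (Lam.map j) (j s) = (colon Lam s).map (j : A →+ E) := by
    ext y
    rw [mem_colon, AddSubgroup.mem_map]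
    constructor
    · rintro ⟨⟨x, hx, rfl⟩, z, hz, h⟩
      rw [← map_mul] at h
      have h2 := hj h
      rw [h2] at hz
      exact ⟨x, ⟨hx, hz⟩, rfl⟩
    · rintro ⟨x, hx, rfl⟩
      refine ⟨⟨x, hx.1, rfl⟩, ⟨s * x, hx.2, ?_⟩⟩
      rw [map_mul]
      rfl
  have h2 : (Lam.map j).toAddSubgroup = Lam.toAddSubgroup.map (j : A →+ E) := by
    ext y
    rfl
  rw [den, h1, h2, den, AddSubgroup.relIndex_map_map_of_injective _ _ (f := (j : A →+ E)) hj]

theorem den_one_le {s : E} (h : den Λ s ≠ 0) : 1 ≤ den Λ s := Nat.one_le_iff_ne_zero.2 h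

end Alg

section Top

variable {E : Type*} [Ring E] [TopologicalSpace E] [IsTopologicalRing E] [T2Space E]
  {Λ : Subring E}

/-- data of an order in a topological ring: discrete and cocompact -/
structure LRing (Λ : Subring E) : Prop where
  countable : Countable Λ
  disc : ∀ K : Set E, IsCompact K → ((Λ : Set E) ∩ K).Finite
  coc : ∃ K : Set E, IsCompact K ∧ ∀ x : E, ∃ a ∈ Λ, x - a ∈ K

omit [IsTopologicalRing E] [T2Space E] in
theorem LRing.latt (hΛ : LRing Λ) : Latt Λ.toAddSubgroup :=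
  ⟨hΛ.countable, hΛ.disc, hΛ.coc⟩

omit [T2Space E] in
/-- `h Λ` has finite index in `Λ`, `h ∈ Λ` a unit of `E` -/
theorem finite_mul_index (hΛ : LRing Λ) {h : E} (hh : h ∈ Λ)
    (hu : IsUnit h) {I : AddSubgroup E} (hI : ∀ x ∈ Λ, h * x ∈ I) :
    I.relIndex Λ.toAddSubgroup ≠ 0 := by
  obtain ⟨K, hK, hcov⟩ := hΛ.coc
  obtain ⟨w, rfl⟩ := hu
  have hF : ((Λ : Set E) ∩ ((fun x => (w : E) * x) '' K)).Finite :=
    hΛ.disc _ (hK.image (continuous_const.mul continuous_id))
  set F := (Λ : Set E) ∩ ((fun x => (w : E) * x) '' K) with hFdef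
  have : Finite F := hF
  have h1 : Function.Surjective (fun f : F =>
      ((⟨(f : E), f.2.1⟩ : Λ.toAddSubgroup) :
        Λ.toAddSubgroup ⧸ I.addSubgroupOf Λ.toAddSubgroup)) := by
    intro q
    obtain ⟨x, rfl⟩ := QuotientAddGroup.mk_surjective q
    obtain ⟨a, ha, hx⟩ := hcov ((w⁻¹ : Eˣ) * (x : E))
    have hw : (w : E) * (((w⁻¹ : Eˣ) : E) * (x : E) - a) = (x : E) - w * a := by
      rw [mul_sub, ← mul_assoc, Units.mul_inv, one_mul]
    have hwa : (w : E) * a ∈ Λ := Λ.mul_mem hh ha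
    refine ⟨⟨(x : E) - w * a, Λ.sub_mem x.2 hwa, _, hx, hw⟩, ?_⟩
    rw [QuotientAddGroup.eq, AddSubgroup.mem_addSubgroupOf]
    have h2 : ((-(⟨(x : E) - w * a, Λ.sub_mem x.2 hwa⟩ : Λ.toAddSubgroup) + x :
        Λ.toAddSubgroup) : E) = w * a := by
      rw [AddSubgroup.coe_add, AddSubgroup.coe_neg]
      change -((x : E) - w * a) + x = w * a
      abel
    rw [h2]
    exact hI a ha
  have h2 : Finite (Λ.toAddSubgroup ⧸ I.addSubgroupOf Λ.toAddSubgroup) :=
    Finite.of_surjective _ h1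
  exact AddSubgroup.index_ne_zero_of_finite

omit [T2Space E] in
/-- the denominator is finite if some `h ∈ Λ`, a unit of `E`, satisfies `s h ∈ Λ` -/
theorem den_ne_zero (hΛ : LRing Λ) {s h : E} (hh : h ∈ Λ) (hu : IsUnit h) (hs : s * h ∈ Λ) :
    den Λ s ≠ 0 :=
  finite_mul_index hΛ hh hu fun x hx => ⟨Λ.mul_mem hh hx, by
    rw [← mul_assoc]
    exact Λ.mul_mem hs hx⟩

variable [LocallyCompactSpace E] [MeasurableSpace E] [BorelSpace E]

/-- **Spacing.** -/
theorem spacing (hΛ : LRing Λ) {s t : E} (hs : den Λ s ≠ 0) (ht : den Λ t ≠ 0) (d : Eˣ)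
    (hd : (d : E) = s - t) :
    1 ≤ (den Λ s : ℝ≥0) * den Λ t * distribHaarChar E d := by
  have h1 : (colon Λ s ⊓ colon Λ t).relIndex Λ.toAddSubgroup ≤ den Λ s * den Λ t :=
    AddSubgroup.relIndex_inf_le
  have h0 : (colon Λ s ⊓ colon Λ t).relIndex Λ.toAddSubgroup ≠ 0 :=
    AddSubgroup.relIndex_inf_ne_zero hs ht
  have h2 := one_le_mod_of_sublattice hΛ.latt (I := colon Λ s ⊓ colon Λ t)
    (inf_le_left.trans (colon_le Λ s)) h0 d (fun x hx => by
      rw [hd, sub_mul]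
      exact Λ.sub_mem hx.1.2 hx.2.2)
  refine h2.trans ?_
  gcongr
  exact_mod_cast h1

/-- **Spacing, Haar form.** -/
theorem spacing_measure {μ : Measure E} [μ.IsAddHaarMeasure] [μ.Regular] (hΛ : LRing Λ) {s t : E}
    (hs : den Λ s ≠ 0) (ht : den Λ t ≠ 0) (d : Eˣ) (hd : (d : E) = s - t) (W : Set E) :
    μ W ≤ (den Λ s : ℝ≥0∞) * den Λ t * μ ((fun y => (d : E) * y) '' W) := by
  have h1 := spacing hΛ hs ht d hd
  have h2 : (fun y => (d : E) * y) '' W = d • W := by
    rw [← Set.image_smul]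
    rfl
  rw [h2, ← distribHaarChar_mul μ d W, ← mul_assoc]
  refine le_mul_of_one_le_left zero_le ?_
  have h3 : ((1 : ℝ≥0) : ℝ≥0∞) ≤
      (((den Λ s : ℝ≥0) * den Λ t * distribHaarChar E d : ℝ≥0) : ℝ≥0∞) := by
    exact_mod_cast h1
  simpa using h3

/-- **Spacing, Haar form, for measure preserving elements** (e.g. unitary elements `x`). -/
theorem spacing_unitary {μ : Measure E} [μ.IsAddHaarMeasure] [μ.Regular] (hΛ : LRing Λ)
    {x y : E} (hx : den Λ x ≠ 0) (hy : den Λ y ≠ 0) (u : Eˣ) (hu : (u : E) = x)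
    (hmod : ∀ W : Set E, μ ((fun z => x * z) '' W) = μ W) (hxy : IsUnit (y - x)) (W : Set E) :
    μ W ≤ (den Λ x : ℝ≥0∞) * den Λ y *
      μ ((fun z => (((u⁻¹ : Eˣ) : E) * y - 1) * z) '' W) := by
  obtain ⟨d, hd⟩ := hxy
  have h1 := spacing_measure (μ := μ) hΛ hy hx d hd W
  have h2 : (fun z => (d : E) * z) '' W =
      (fun z => x * z) '' ((fun z => (((u⁻¹ : Eˣ) : E) * y - 1) * z) '' W) := by
    rw [Set.image_image]
    refine Set.image_congr fun z _ => ?_
    rw [hd, ← hu, ← mul_assoc, mul_sub, ← mul_assoc, Units.mul_inv, one_mul, mul_one]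
  rw [h2, hmod] at h1
  rwa [mul_comm (den Λ x : ℝ≥0∞)]

/-- **Denominator of the Cayley transform**: `w (s - θ) = s - θ'` with `θ, θ' ∈ Λ` and
`θ - θ'` a unit of `Λ`; then `den w = den s * mod (s - θ)`. -/
theorem den_cay (hΛ : LRing Λ) {s w θ θ' ε : E} (hθ : θ ∈ Λ) (hθ' : θ' ∈ Λ)
    (hε : ε ∈ Λ) (hεθ : ε * (θ - θ') = 1) (hs : den Λ s ≠ 0) (hw0 : den Λ w ≠ 0)
    (d : Eˣ) (hd : (d : E) = s - θ) (hw : w * (s - θ) = s - θ') :
    (den Λ w : ℝ≥0) = den Λ s * distribHaarChar E d := by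
  have key : ∀ x, w * ((d : E) * x) = s * x - θ' * x := by
    intro x
    rw [hd, ← mul_assoc, hw, sub_mul]
  have hdx : ∀ x, (d : E) * x = s * x - θ * x := by
    intro x
    rw [hd, sub_mul]
  refine (index_mul_mod hΛ.latt (colon_le Λ s) (colon_le Λ w) hs d ?_ ?_).2 hw0
  · intro x
    rw [mem_colon, mem_colon, key, hdx]
    constructor
    · rintro ⟨h1, h2⟩
      exact ⟨Λ.sub_mem h2 (Λ.mul_mem hθ h1), Λ.sub_mem h2 (Λ.mul_mem hθ' h1)⟩
    · rintro ⟨h1, h2⟩
      have h3 : (θ - θ') * x ∈ Λ := by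
        have := Λ.sub_mem h2 h1
        rwa [sub_sub_sub_cancel_left, ← sub_mul] at this
      have h4 : x ∈ Λ := by
        have := Λ.mul_mem hε h3
        rwa [← mul_assoc, hεθ, one_mul] at this
      refine ⟨h4, ?_⟩
      have := Λ.add_mem h1 (Λ.mul_mem hθ h4)
      rwa [sub_add_cancel] at this
  · intro y hy
    refine ⟨((d⁻¹ : Eˣ) : E) * y, ?_, by rw [← mul_assoc, Units.mul_inv, one_mul]⟩
    have hdy : (d : E) * (((d⁻¹ : Eˣ) : E) * y) = y := by rw [← mul_assoc, Units.mul_inv, one_mul]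
    set x := ((d⁻¹ : Eˣ) : E) * y with hx
    have h1 : s * x - θ * x ∈ Λ := by
      rw [← hdx, hdy]
      exact hy.1
    have h2 : s * x - θ' * x ∈ Λ := by
      rw [← key, hdy]
      exact hy.2
    have h3 : (θ - θ') * x ∈ Λ := by
      have := Λ.sub_mem h2 h1
      rwa [sub_sub_sub_cancel_left, ← sub_mul] at this
    have h4 : x ∈ Λ := by
      have := Λ.mul_mem hε h3
      rwa [← mul_assoc, hεθ, one_mul] at this
    refine ⟨h4, ?_⟩
    have := Λ.add_mem h1 (Λ.mul_mem hθ h4)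
    rwa [sub_add_cancel] at this

end Top

end Vale.Agent.P011.H699
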