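import Vale.Agent.P011.H167.LfC

/-!
The products of unit vectors of the family are nearly unitary at the places where the given
vector is near the first one.
-/

open Module Polynomial

set_option linter.unusedSectionVars false

namespace Vale.Agent.P011.H699

open Vale.Agent.P011.H738 Vale.Agent.P011.H271 Vale.Agent.P011.H182 Vale.Agent.P011.H305
  Vale.Agent.P011.H158.N4 Vale.Agent.P011.H167.Lf

section pert

variable {k D : Type} [Field k] [DivisionRing D] [StarRing D] [Algebra k D] {N : ℕ}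
  (B : Basis (Fin N) k D) (a : AbsoluteValue k ℝ)

theorem pert {C : ℝ} (hC : 1 ≤ C) (hmul : ∀ x y, na B a (x * y) ≤ C * na B a x * na B a y)
    (hst : ∀ x, na B a (star x) ≤ C * na B a x) {η : ℝ} (hη1 : η ≤ 1) {x y b : D}
    (hb : na B a b ≤ η) (hx : x = 1 - b ∧ y = 1 - star b ∨ y = 1 - b ∧ x = 1 - star b) :
    na B a (x * y - 1) ≤ (1 + C + C ^ 2) * η := by
  have h0 := na_nonneg B a b
  have h1 := hst b
  have h1' := na_nonneg B a (star b)
  have h2 : na B a (star b) ≤ C * η := h1.trans (mul_le_mul_of_nonneg_left hb (by linarith))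
  have h3 : C * η * η ≤ C * η := mul_le_of_le_one_right (mul_nonneg (by linarith) (h0.trans hb)) hη1
  have h4 : ∀ x y : D, na B a x ≤ C * η → na B a y ≤ η → na B a (x * y) ≤ C ^ 2 * η := by
    intro x y hx hy
    refine (hmul x y).trans ?_
    have h5 : C * na B a x ≤ C * (C * η) := mul_le_mul_of_nonneg_left hx (by linarith)
    have h6 := mul_le_mul h5 hy (na_nonneg B a y) (by
      have := mul_nonneg (show (0 : ℝ) ≤ C by linarith)
        (mul_nonneg (show (0 : ℝ) ≤ C by linarith) (h0.trans hb))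
      exact this)
    refine h6.trans ?_
    calc C * (C * η) * η = C * (C * η * η) := by ring
      _ ≤ C * (C * η) := mul_le_mul_of_nonneg_left h3 (by linarith)
      _ = C ^ 2 * η := by ring
  have h4' : ∀ x y : D, na B a x ≤ η → na B a y ≤ C * η → na B a (x * y) ≤ C ^ 2 * η := by
    intro x y hx hy
    refine (hmul x y).trans ?_
    have h5 : C * na B a x ≤ C * η := mul_le_mul_of_nonneg_left hx (by linarith)
    have h6 := mul_le_mul h5 hy (na_nonneg B a y) (mul_nonneg (by linarith) (h0.trans hb))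
    refine h6.trans ?_
    calc C * η * (C * η) = C * (C * η * η) := by ring
      _ ≤ C * (C * η) := mul_le_mul_of_nonneg_left h3 (by linarith)
      _ = C ^ 2 * η := by ring
  rcases hx with ⟨rfl, rfl⟩ | ⟨rfl, rfl⟩
  · have e : (1 - b) * (1 - star b) - 1 = b * star b - (star b + b) := by noncomm_ring
    rw [e]
    have h7 := na_sub_le B a (b * star b) (star b + b)
    have h8 := na_add_le B a (star b) b
    have h9 := h4' b (star b) hb h2
    nlinarith
  · have e : (1 - star b) * (1 - b) - 1 = star b * b - (star b + b) := by noncomm_ring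
    rw [e]
    have h7 := na_sub_le B a (star b * b) (star b + b)
    have h8 := na_add_le B a (star b) b
    have h9 := h4 (star b) b h2 hb
    nlinarith

end pert

variable {k K D : Type} [Field k] [GFF k] [Field K] [StarRing K]
    [DivisionRing D] [StarRing D] [Algebra k K] [Algebra k D] [Algebra K D] [IsScalarTower k K D]
    {d : kˣ} {s : K} {N : ℕ}

theorem near_fam (hS : SetF k K D d s) (B : Basis (Fin N) k D) (v : Place k) {ε : ℝ}
    (hε : 0 < ε) : ∃ δ : ℝ, 0 < δ ∧ ∀ (y : D) (τ : k) (σ : D),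
      σ = algebraMap K D (algebraMap k K τ * s) → v.abv τ ≤ 1 → na B v.abv (y - 1) < δ →
      1 + σ * (1 - y) ≠ 0 → ∀ z z' : D,
        z = star (y + σ * (1 - y)) * star (1 + σ * (1 - y))⁻¹ →
        z' = (1 + σ * (1 - y))⁻¹ * (1 + σ * ((1 - y) * star y)) →
        na B v.abv (z * star z - 1) < ε ∧ na B v.abv (z' * star z' - 1) < ε := by
  obtain ⟨C, hC, hmul, hst⟩ := na_const B v.abv hS.star_smulk
  have hC0 : 0 < C := by linarith
  obtain ⟨S, hSd⟩ : ∃ S : D, S = algebraMap K D s := ⟨_, rfl⟩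
  obtain ⟨s0, hs0⟩ : ∃ s0 : ℝ, s0 = na B v.abv S := ⟨_, rfl⟩
  obtain ⟨n1, hn1⟩ : ∃ n1 : ℝ, n1 = na B v.abv (1 : D) := ⟨_, rfl⟩
  have hs0' : 0 ≤ s0 := hs0 ▸ na_nonneg B v.abv S
  have hn1' : 0 ≤ n1 := hn1 ▸ na_nonneg B v.abv 1
  obtain ⟨M, hM⟩ : ∃ M : ℝ, M = 1 + C + C ^ 2 := ⟨_, rfl⟩
  have hM0 : 0 < M := by rw [hM]; positivity
  obtain ⟨η, hη⟩ : ∃ η : ℝ, η = min 1 (ε / (2 * M)) := ⟨_, rfl⟩
  have hη0 : 0 < η := by rw [hη]; exact lt_min one_pos (by positivity)
  have hη1 : η ≤ 1 := by rw [hη]; exact min_le_left _ _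
  have hηε : M * η < ε := by
    have h1 : η ≤ ε / (2 * M) := by rw [hη]; exact min_le_right _ _
    have h2 : M * η ≤ M * (ε / (2 * M)) := mul_le_mul_of_nonneg_left h1 hM0.le
    have h3 : M * (ε / (2 * M)) = ε / 2 := by
      field_simp
    linarith
  have hd1 : 0 < 2 * (C ^ 2 * s0) + 1 := by positivity
  have hd2 : 0 < 2 * (C ^ 2 * n1) + 1 := by positivity
  refine ⟨min (1 / (2 * (C ^ 2 * s0) + 1)) (η / (2 * (C ^ 2 * n1) + 1)),
    lt_min (by positivity) (by positivity), ?_⟩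
  intro y τ σ hσ hτ hy hne z z' hz hz'
  obtain ⟨δ, hδ⟩ : ∃ δ : ℝ, δ = na B v.abv (y - 1) := ⟨_, rfl⟩
  rw [← hδ] at hy
  have hδ0 : 0 ≤ δ := hδ ▸ na_nonneg _ _ _
  have hδ1 : C ^ 2 * s0 * δ ≤ 1 / 2 := by
    have h1 : δ * (2 * (C ^ 2 * s0) + 1) ≤ 1 := by
      have := (le_div_iff₀ hd1).mp (hy.le.trans (min_le_left _ _))
      exact this
    nlinarith
  have hδ2 : 2 * (C ^ 2 * n1) * δ ≤ η := by
    have h1 : δ * (2 * (C ^ 2 * n1) + 1) ≤ η := by
      have := (le_div_iff₀ hd2).mp (hy.le.trans (min_le_right _ _))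
      exact this
    nlinarith
  obtain ⟨β, hβ⟩ : ∃ β : D, β = 1 - y := ⟨_, rfl⟩
  have hyβ : y = 1 - β := by rw [hβ]; abel
  have hnβ : na B v.abv β = δ := by rw [hβ, na_sub_comm, hδ]
  rw [← hβ] at hne hz hz'
  have hσ' : σ = τ • S := by
    rw [hσ, hSd, map_mul, ← IsScalarTower.algebraMap_apply, Algebra.smul_def]
  have hσc : ∀ x : D, σ * x = x * σ := fun x => by
    rw [hσ]
    exact Algebra.commutes _ x
  have hnσ : na B v.abv σ ≤ s0 := by
    rw [hσ', na_smul, ← hs0]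
    exact mul_le_of_le_one_left hs0' hτ
  obtain ⟨w, hw⟩ : ∃ w : D, w = σ * β := ⟨_, rfl⟩
  rw [← hw] at hne hz hz'
  have hnw : C * na B v.abv w ≤ 1 / 2 := by
    have h1 : na B v.abv w ≤ C * s0 * δ := by
      rw [hw]
      refine (hmul _ _).trans ?_
      rw [hnβ]
      exact mul_le_mul_of_nonneg_right (mul_le_mul_of_nonneg_left hnσ hC0.le) hδ0
    calc C * na B v.abv w ≤ C * (C * s0 * δ) := mul_le_mul_of_nonneg_left h1 hC0.le
      _ = C ^ 2 * s0 * δ := by ring
      _ ≤ 1 / 2 := hδ1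
  obtain ⟨u, hu⟩ : ∃ u : D, u = 1 + w := ⟨_, rfl⟩
  rw [← hu] at hne hz hz'
  have hui : u⁻¹ = 1 - w * u⁻¹ := by
    have h1 : (1 + w) * u⁻¹ = 1 := by rw [← hu]; exact mul_inv_cancel₀ hne
    rw [add_mul, one_mul] at h1
    exact eq_sub_of_add_eq h1
  have hnu : na B v.abv u⁻¹ ≤ 2 * n1 := by
    have h1 : na B v.abv u⁻¹ ≤ n1 + C * na B v.abv w * na B v.abv u⁻¹ := by
      calc na B v.abv u⁻¹ = na B v.abv (1 - w * u⁻¹) := by rw [← hui]
        _ ≤ na B v.abv 1 + na B v.abv (w * u⁻¹) := na_sub_le _ _ _ _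
        _ ≤ n1 + C * na B v.abv w * na B v.abv u⁻¹ := by
            rw [← hn1]
            exact add_le_add le_rfl (hmul _ _)
    have h2 : C * na B v.abv w * na B v.abv u⁻¹ ≤ 1 / 2 * na B v.abv u⁻¹ :=
      mul_le_mul_of_nonneg_right hnw (na_nonneg _ _ _)
    linarith
  have hnu0 := na_nonneg B v.abv u⁻¹
  -- the first product
  obtain ⟨b, hb⟩ : ∃ b : D, b = u⁻¹ * β := ⟨_, rfl⟩
  have hzb : star z = 1 - b := by
    rw [hz, star_mul, star_star, star_star, hb, hyβ]
    have h1 : 1 - β + w = u - β := by rw [hu]; abel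
    rw [h1, mul_sub, inv_mul_cancel₀ hne]
  have hzb' : z = 1 - star b := by
    rw [← star_star z, hzb, star_sub, star_one]
  have hnb : na B v.abv b ≤ η := by
    rw [hb]
    refine (hmul _ _).trans ?_
    rw [hnβ]
    have h1 : C * na B v.abv u⁻¹ * δ ≤ C * (2 * n1) * δ :=
      mul_le_mul_of_nonneg_right (mul_le_mul_of_nonneg_left hnu hC0.le) hδ0
    have h2 : C * (2 * n1) * δ ≤ 2 * (C ^ 2 * n1) * δ := by
      refine mul_le_mul_of_nonneg_right ?_ hδ0
      nlinarith [mul_nonneg hC0.le hn1', mul_nonneg (mul_nonneg hC0.le hn1')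
        (show (0 : ℝ) ≤ C - 1 by linarith)]
    linarith
  -- the second product
  obtain ⟨c, hc⟩ : ∃ c : D, c = u⁻¹ * (w * star β) := ⟨_, rfl⟩
  have hzc : z' = 1 - c := by
    rw [hz', hc, hyβ, star_sub, star_one]
    have h1 : 1 + σ * (β * (1 - star β)) = u - w * star β := by
      rw [hu, hw, mul_sub, mul_one, mul_sub, mul_assoc]
      abel
    rw [h1, mul_sub, inv_mul_cancel₀ hne]
  have hzc' : star z' = 1 - star c := by
    rw [hzc, star_sub, star_one]
  have hnc : na B v.abv c ≤ η := by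
    rw [hc]
    refine (hmul _ _).trans ?_
    have h1 : na B v.abv (w * star β) ≤ C * na B v.abv w * (C * δ) := by
      refine (hmul _ _).trans ?_
      refine mul_le_mul_of_nonneg_left ?_ (mul_nonneg hC0.le (na_nonneg _ _ _))
      rw [← hnβ]
      exact hst β
    have h2 : na B v.abv (w * star β) ≤ 1 / 2 * (C * δ) :=
      h1.trans (mul_le_mul_of_nonneg_right hnw (mul_nonneg hC0.le hδ0))
    have h3 : C * na B v.abv u⁻¹ * na B v.abv (w * star β) ≤ C * (2 * n1) * (1 / 2 * (C * δ)) :=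
      mul_le_mul (mul_le_mul_of_nonneg_left hnu hC0.le) h2 (na_nonneg _ _ _) (by positivity)
    have h4 : C * (2 * n1) * (1 / 2 * (C * δ)) = C ^ 2 * n1 * δ := by ring
    have h5 : 0 ≤ C ^ 2 * n1 * δ := by positivity
    linarith
  refine ⟨lt_of_le_of_lt ?_ hηε, lt_of_le_of_lt ?_ hηε⟩
  · rw [hM]
    exact pert B v.abv hC hmul hst hη1 hnb (Or.inr ⟨hzb, hzb'⟩)
  · rw [hM]
    exact pert B v.abv hC hmul hst hη1 hnc (Or.inl ⟨hzc, hzc'⟩)

end Vale.Agent.P011.H699
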