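import Vale.Agent.P011.H699.G0

/-!
The commutators of isometries of the hermitian plane, from transitivity and matched pairs, for the
subgroups of finite index with abelian quotient.
-/

open Module Matrix

set_option linter.unusedSectionVars false

namespace Vale.Agent.P011.H699

open Vale.Agent.P011.Two

section diag

variable {D : Type} [DivisionRing D]

theorem ext_of {u v : (D × D) ≃ₗ[D] (D × D)} (h1 : u (1, 0) = v (1, 0))
    (h2 : u (0, 1) = v (0, 1)) : u = v := by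
  ext1 x
  rw [map_eq u x, map_eq v x, h1, h2]

theorem isDiag_mul {t t' r r' : D} {u v : (D × D) ≃ₗ[D] (D × D)} (hu : IsDiag t t' u)
    (hv : IsDiag r r' v) : IsDiag (r * t) (r' * t') (u * v) := by
  constructor
  · change u (v (1, 0)) = _
    rw [hv.1, map_eq u, hu.1, hu.2]
    simp
  · change u (v (0, 1)) = _
    rw [hv.2, map_eq u, hu.1, hu.2]
    simp

theorem isDiag_ne {t t' : D} {u : (D × D) ≃ₗ[D] (D × D)} (hu : IsDiag t t' u) :
    t ≠ 0 ∧ t' ≠ 0 := by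
  constructor
  · rintro rfl
    have h1 : ((1, 0) : D × D) = 0 := u.injective (by rw [hu.1, map_zero]; rfl)
    exact one_ne_zero (congrArg Prod.fst h1)
  · rintro rfl
    have h1 : ((0, 1) : D × D) = 0 := u.injective (by rw [hu.2, map_zero]; rfl)
    exact one_ne_zero (congrArg Prod.snd h1)

theorem isDiag_inv {t t' : D} {u : (D × D) ≃ₗ[D] (D × D)} (hu : IsDiag t t' u) :
    IsDiag t⁻¹ t'⁻¹ u⁻¹ := by
  obtain ⟨h1, h2⟩ := isDiag_ne hu
  constructor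
  · apply u.injective
    have h3 : u (u⁻¹ (1, 0)) = (1, 0) := u.apply_symm_apply _
    rw [h3, map_eq u, hu.1, hu.2]
    simp [inv_mul_cancel₀ h1]
  · apply u.injective
    have h3 : u (u⁻¹ (0, 1)) = (0, 1) := u.apply_symm_apply _
    rw [h3, map_eq u, hu.1, hu.2]
    simp [inv_mul_cancel₀ h2]

theorem isDiag_comm {t t' r r' : D} {u v : (D × D) ≃ₗ[D] (D × D)} (hu : IsDiag t t' u)
    (hv : IsDiag r r' v) :
    IsDiag (r⁻¹ * (t⁻¹ * (r * t))) (r'⁻¹ * (t'⁻¹ * (r' * t'))) (u * v * u⁻¹ * v⁻¹) :=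
  isDiag_mul (isDiag_mul (isDiag_mul hu hv) (isDiag_inv hu)) (isDiag_inv hv)

theorem eq_of_isDiag {t t' : D} {u v : (D × D) ≃ₗ[D] (D × D)} (hu : IsDiag t t' u)
    (hv : IsDiag t t' v) : u = v := ext_of (by rw [hu.1, hv.1]) (by rw [hu.2, hv.2])

variable [StarRing D] {g : D}

/-- An isometry which preserves the first line is diagonal. -/
theorem isDiag_of_first (hg : star g = g) (hg0 : g ≠ 0) {u : (D × D) ≃ₗ[D] (D × D)}
    (hu : u ∈ Uh g) {t : D} (ht : u (1, 0) = (t, 0)) : ∃ t' : D, IsDiag t t' u := by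
  have ht0 : t ≠ 0 := by
    rintro rfl
    have h1 : ((1, 0) : D × D) = 0 := u.injective (by rw [ht, map_zero]; rfl)
    exact one_ne_zero (congrArg Prod.fst h1)
  have h1 := hu (0, 1) (1, 0)
  rw [ht, hh_right, hh] at h1
  simp only [star_zero, mul_zero, add_zero] at h1
  have h2 : (u (0, 1)).1 = 0 := (mul_eq_zero.mp h1).resolve_right (star_ne_zero.mpr ht0)
  exact ⟨(u (0, 1)).2, ht, Prod.ext h2 rfl⟩

theorem diag_mem {t t' : D} (hg0 : g ≠ 0) {u : (D × D) ≃ₗ[D] (D × D)} (hu : u ∈ Uh g)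
    (h : IsDiag t t' u) : t * star t = 1 ∧ t' * g * star t' = g := by
  constructor
  · have h1 := hu (1, 0) (1, 0)
    rw [h.1, hh_right, hh] at h1
    simpa using h1
  · have h1 := hu (0, 1) (0, 1)
    rw [h.2, hh_right', hh] at h1
    simpa using h1

end diag

section conj

variable {G : Type} [Group G]

/-- The elements of the subgroup whose conjugate is in the subgroup. -/
def cj (Q : Subgroup G) (v : G) : Subgroup G := Q ⊓ Q.comap (MulAut.conj v).toMonoidHom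

theorem mem_cj {Q : Subgroup G} {v x : G} : x ∈ cj Q v ↔ x ∈ Q ∧ v * x * v⁻¹ ∈ Q := Iff.rfl

/-- The subgroup `Q` of `G₀` is normalised by `G₀`, of finite index in `G₀` and contains the
commutators of `G₀`. -/
structure Ab (G₀ Q : Subgroup G) : Prop where
  le : Q ≤ G₀
  norm : ∀ v ∈ G₀, ∀ x ∈ Q, v * x * v⁻¹ ∈ Q
  fin : Q.relIndex G₀ ≠ 0
  comm : ∀ a ∈ G₀, ∀ b ∈ G₀, a * b * a⁻¹ * b⁻¹ ∈ Q

theorem Ab.cj {G₀ Q : Subgroup G} (h : Ab G₀ Q) {v : G} (hv : ∀ x, v * x * v⁻¹ ∈ G₀ ↔ x ∈ G₀) :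
    Ab G₀ (cj Q v) where
  le x hx := h.le hx.1
  norm a ha x hx := by
    refine ⟨h.norm a ha x hx.1, ?_⟩
    change v * (a * x * a⁻¹) * v⁻¹ ∈ Q
    have e : v * (a * x * a⁻¹) * v⁻¹ = (v * a * v⁻¹) * (v * x * v⁻¹) * (v * a * v⁻¹)⁻¹ := by group
    rw [e]
    exact h.norm _ ((hv a).mpr ha) _ hx.2
  fin := by
    refine Subgroup.relIndex_inf_ne_zero h.fin ?_
    rw [Subgroup.relIndex_comap]
    have e : G₀.map (MulAut.conj v).toMonoidHom = G₀ := by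
      ext x
      rw [Subgroup.mem_map]
      constructor
      · rintro ⟨y, hy, rfl⟩
        exact (hv y).mpr hy
      · intro hx
        refine ⟨v⁻¹ * x * v, (hv _).mp ?_, ?_⟩
        · have e : v * (v⁻¹ * x * v) * v⁻¹ = x := by group
          rwa [e]
        · change v * (v⁻¹ * x * v) * v⁻¹ = x
          group
    rw [e]
    exact h.fin
  comm a ha b hb := by
    refine ⟨h.comm a ha b hb, ?_⟩
    change v * (a * b * a⁻¹ * b⁻¹) * v⁻¹ ∈ Q
    have e : v * (a * b * a⁻¹ * b⁻¹) * v⁻¹ =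
        (v * a * v⁻¹) * (v * b * v⁻¹) * (v * a * v⁻¹)⁻¹ * (v * b * v⁻¹)⁻¹ := by group
    rw [e]
    exact h.comm _ ((hv a).mpr ha) _ ((hv b).mpr hb)

theorem comm_mul {Q : Subgroup G} {n l v : G} (hn : n ∈ cj Q v)
    (h : l * v * l⁻¹ * v⁻¹ ∈ Q) : (n * l) * v * (n * l)⁻¹ * v⁻¹ ∈ Q := by
  have e : (n * l) * v * (n * l)⁻¹ * v⁻¹ = n * (l * v * l⁻¹ * v⁻¹) * (v * n * v⁻¹)⁻¹ := by group
  rw [e]
  exact Q.mul_mem (Q.mul_mem hn.1 h) (Q.inv_mem hn.2)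

theorem comm_symm {Q : Subgroup G} {u v : G} (h : u * v * u⁻¹ * v⁻¹ ∈ Q) :
    v * u * v⁻¹ * u⁻¹ ∈ Q := by
  have e : v * u * v⁻¹ * u⁻¹ = (u * v * u⁻¹ * v⁻¹)⁻¹ := by group
  rw [e]
  exact Q.inv_mem h

end conj

section main

open Vale.Agent.P011.H305 Vale.Agent.P011.H428 Vale.Agent.P011.H271

variable {k K D Ω : Type} [Field k] [Field K] [StarRing K] [DivisionRing D] [StarRing D]
  [Algebra k K] [Algebra k D] [Algebra K D] [IsScalarTower k K D] {d : kˣ} {s : K} {n : ℕ}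
  [Field Ω] [Algebra K Ω] (f : D →ₐ[K] Matrix (Fin n) (Fin n) Ω)

theorem conj_iff {g : D} {v : (D × D) ≃ₗ[D] (D × D)} (hv : v ∈ Uh g)
    (x : (D × D) ≃ₗ[D] (D × D)) : v * x * v⁻¹ ∈ G0 f g ↔ x ∈ G0 f g := by
  refine ⟨fun h => ?_, G0_conj f hv⟩
  have h1 := G0_conj f (inv_mem hv) h
  have e : v⁻¹ * (v * x * v⁻¹) * v⁻¹⁻¹ = x := by group
  rwa [e] at h1

/-- **The commutators of isometries**, from transitivity on the unit vectors of the orbit and from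
matched pairs. -/
theorem comm_two_of [GFF k] (hS : SetF k K D d s) (hdeg : finrank K D = n ^ 2) {g : D}
    (hg : star g = g) (hg0 : g ≠ 0) {Q : Subgroup ((D × D) ≃ₗ[D] (D × D))}
    (hQ : Ab (G0 f g) Q)
    (hT : ∀ Q' : Subgroup ((D × D) ≃ₗ[D] (D × D)), Ab (G0 f g) Q' → ∀ x ∈ G0 f g,
      ∃ u ∈ Q', ∃ δ : D, δ ≠ 0 ∧ u (1, 0) = δ • x (1, 0))
    (hM : ∀ Q' : Subgroup ((D × D) ≃ₗ[D] (D × D)), Ab (G0 f g) Q' → ∀ t : D, t * star t = 1 →
      ∃ t' : D, ∃ u ∈ Q', IsDiag t t' u) :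
    ∀ u ∈ Uh g, ∀ v ∈ Uh g, u * v * u⁻¹ * v⁻¹ ∈ Q := by
  have hcj : ∀ v ∈ Uh g, Ab (G0 f g) (cj Q v) := fun v hv => hQ.cj (conj_iff f hv)
  -- the last step: second coordinates
  have h3 : ∀ (l v : (D × D) ≃ₗ[D] (D × D)) (c c' : D), l ∈ Uh g → v ∈ Uh g → IsDiag 1 c l →
      IsDiag 1 c' v → l * v * l⁻¹ * v⁻¹ ∈ Q := by
    intro l v c c' hl hv hlc hvc
    have hlift : ∀ (l : (D × D) ≃ₗ[D] (D × D)) (c : D), l ∈ Uh g → IsDiag 1 c l →
        ∃ a : D, a * star a = 1 ∧ ∃ p ∈ G0 f g, IsDiag a c p := by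
      intro l c hl hlc
      obtain ⟨-, hc⟩ := diag_mem hg0 hl hlc
      obtain ⟨a, ha, hac⟩ := exists_balance f hS hdeg hg hg0 hc
      obtain ⟨p, hp, hpd⟩ := exists_diag ha hc hg0
      exact ⟨a, ha, p, hac p hpd hp, hpd⟩
    obtain ⟨a, ha, p, hp, hpd⟩ := hlift l c hl hlc
    obtain ⟨a', ha', p', hp', hpd'⟩ := hlift v c' hv hvc
    -- the commutator depends only on the second coordinate
    have e1 : ∀ (x y z : (D × D) ≃ₗ[D] (D × D)) (a c b : D), IsDiag 1 c x → IsDiag a c y →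
        IsDiag 1 b z → x * z * x⁻¹ * z⁻¹ = y * z * y⁻¹ * z⁻¹ := by
      intro x y z a c b hx hy hz
      have h1 := isDiag_comm hx hz
      have h2 := isDiag_comm hy hz
      have h0 : a ≠ 0 := (isDiag_ne hy).1
      simp only [inv_one, one_mul] at h1
      simp only [inv_one, one_mul, inv_mul_cancel₀ h0] at h2
      exact eq_of_isDiag h1 h2
    rw [e1 l p v a c c' hlc hpd hvc]
    -- the first coordinate of `p` is removed
    obtain ⟨t', m, hm, hmd⟩ := hM _ (hcj v hv) a ha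
    obtain ⟨l2, hl2⟩ : ∃ l2, l2 = m⁻¹ * p := ⟨_, rfl⟩
    have ha0 : a ≠ 0 := (isDiag_ne hpd).1
    have hl2d : IsDiag 1 (c * t'⁻¹) l2 := by
      have h1 := isDiag_mul (isDiag_inv hmd) hpd
      rw [mul_inv_cancel₀ ha0] at h1
      rwa [hl2]
    have hl2G : l2 ∈ G0 f g := by
      rw [hl2]
      exact mul_mem (inv_mem (hQ.le hm.1)) hp
    have e2 : p = m * l2 := by rw [hl2]; group
    rw [e2]
    refine comm_mul hm (comm_symm ?_)
    rw [e1 v p' l2 a' c' (c * t'⁻¹) hvc hpd' hl2d]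
    exact hQ.comm _ hp' _ hl2G
  -- diagonal elements
  have h2 : ∀ (l v : (D × D) ≃ₗ[D] (D × D)) (c : D), l ∈ Uh g → v ∈ Uh g → IsDiag 1 c l →
      (∃ b b' : D, IsDiag b b' v) → l * v * l⁻¹ * v⁻¹ ∈ Q := by
    rintro l v c hl hv hlc ⟨b, b', hvb⟩
    obtain ⟨t', m, hm, hmd⟩ := hM _ (hcj l hl) b (diag_mem hg0 hv hvb).1
    have hb0 : b ≠ 0 := (isDiag_ne hvb).1
    have h1 : IsDiag 1 (b' * t'⁻¹) (m⁻¹ * v) := by
      have h1 := isDiag_mul (isDiag_inv hmd) hvb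
      rwa [mul_inv_cancel₀ hb0] at h1
    have hmU : m ∈ Uh g := G0_le f g (hQ.le hm.1)
    have e : v = m * (m⁻¹ * v) := by group
    apply comm_symm
    rw [e]
    exact comm_mul hm (h3 _ _ _ _ (mul_mem (inv_mem hmU) hv) hl h1 hlc)
  have h1 : ∀ (l v : (D × D) ≃ₗ[D] (D × D)), l ∈ Uh g → v ∈ Uh g →
      (∃ a a' : D, IsDiag a a' l) → (∃ b b' : D, IsDiag b b' v) → l * v * l⁻¹ * v⁻¹ ∈ Q := by
    rintro l v hl hv ⟨a, a', hla⟩ hvd
    obtain ⟨t', m, hm, hmd⟩ := hM _ (hcj v hv) a (diag_mem hg0 hl hla).1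
    have ha0 : a ≠ 0 := (isDiag_ne hla).1
    have h1 : IsDiag 1 (a' * t'⁻¹) (m⁻¹ * l) := by
      have h1 := isDiag_mul (isDiag_inv hmd) hla
      rwa [mul_inv_cancel₀ ha0] at h1
    have hmU : m ∈ Uh g := G0_le f g (hQ.le hm.1)
    have e : l = m * (m⁻¹ * l) := by group
    rw [e]
    exact comm_mul hm (h2 _ _ _ (mul_mem (inv_mem hmU) hl) hv h1 hvd)
  -- reduction to diagonal elements
  have hred : ∀ u ∈ Uh g, ∀ v ∈ Uh g, ∃ m ∈ cj Q v, m ∈ Uh g ∧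
      ∃ a a' : D, IsDiag a a' (m⁻¹ * u) := by
    intro u hu v hv
    obtain ⟨t', l, hl, hld, hul⟩ := exists_lift f hS hdeg hg hg0 hu
    obtain ⟨m, hm, δ, hδ, hmδ⟩ := hT _ (hcj v hv) _ hul
    have hmU : m ∈ Uh g := G0_le f g (hQ.le hm.1)
    have e1 : (u * l) (1, 0) = u (1, 0) := by
      change u (l (1, 0)) = _
      rw [hld.1]
    rw [e1] at hmδ
    have e2 : (m⁻¹ * u) (1, 0) = (δ⁻¹, 0) := by
      change m⁻¹ (u (1, 0)) = _
      apply m.injective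
      have h4 : m (m⁻¹ (u (1, 0))) = u (1, 0) := m.apply_symm_apply _
      have h5 : ((δ⁻¹, 0) : D × D) = δ⁻¹ • ((1, 0) : D × D) := by
        rw [Prod.smul_mk, smul_eq_mul, mul_one, smul_zero]
      rw [h4, h5, map_smul, hmδ, smul_smul, inv_mul_cancel₀ hδ, one_smul]
    obtain ⟨a', h6⟩ := isDiag_of_first hg hg0 (mul_mem (inv_mem hmU) hu) e2
    exact ⟨m, hm, hmU, _, a', h6⟩
  have h0 : ∀ (l v : (D × D) ≃ₗ[D] (D × D)), l ∈ Uh g → v ∈ Uh g →
      (∃ a a' : D, IsDiag a a' l) → l * v * l⁻¹ * v⁻¹ ∈ Q := by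
    intro l v hl hv hld
    obtain ⟨m, hm, hmU, hd⟩ := hred v hv l hl
    have e : v = m * (m⁻¹ * v) := by group
    apply comm_symm
    rw [e]
    exact comm_mul hm (h1 _ _ (mul_mem (inv_mem hmU) hv) hl hd hld)
  intro u hu v hv
  obtain ⟨m, hm, hmU, hd⟩ := hred u hu v hv
  have e : u = m * (m⁻¹ * u) := by group
  rw [e]
  exact comm_mul hm (h0 _ _ (mul_mem (inv_mem hmU) hu) hv hd)

end main

end Vale.Agent.P011.H699
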