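import Mathlib
import Vale.Agent.P011.H699.Mautner
import Vale.Agent.P011.H748.Mautner

/-!
# The Mautner lemma with arbitrary conjugators, and a factor `SL_n(F)`

* `mem_rstab_of_contracted` : Mautner lemma with arbitrary conjugators `a i ∈ G` (no hyperbolic
  element of the lattice is needed, cocompactness provides elements of `N` close to `a i`).
* `sl_le_rstab` : bounded measurable functions, a.e. two-sided invariant under a discrete cocompact
  subgroup `N`, are a.e. right invariant under the image of every homomorphism `SL_n(F) → G`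
  which is continuous on the elementary subgroups.
* `sl_uniform` : hence under the closed subgroup generated by `N` and this image.
-/

open MeasureTheory Filter Topology Set Matrix
open scoped ENNReal Pointwise

namespace Vale.Agent.P011.H699

section Contracted

variable {G : Type*} [Group G] [TopologicalSpace G] [IsTopologicalGroup G]

/-- conjugation by elements of a compact set is uniformly continuous at `1` -/
theorem tendsto_conj_of_compact {K : Set G} (hK : IsCompact K) {ι : Type*} {l : Filter ι}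
    {κ w : ι → G} (hκ : ∀ i, κ i ∈ K) (hw : Tendsto w l (𝓝 1)) :
    Tendsto (fun i => κ i * w i * (κ i)⁻¹) l (𝓝 1) := by
  intro V hV
  have h1 : ∀ᶠ x in 𝓝 (1 : G), ∀ y ∈ K, y * x * y⁻¹ ∈ V := by
    refine hK.eventually_forall_of_forall_eventually fun y _ => ?_
    have h2 : ContinuousAt (fun z : G × G => z.2 * z.1 * z.2⁻¹) (1, y) :=
      ((continuous_snd.mul continuous_fst).mul continuous_snd.inv).continuousAt
    have h3 : Tendsto (fun z : G × G => z.2 * z.1 * z.2⁻¹) (𝓝 (1, y)) (𝓝 1) := by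
      have := h2.tendsto
      simpa using this
    exact h3 hV
  have h4 := hw.eventually h1
  rw [mem_map]
  filter_upwards [h4] with i hi
  exact hi _ (hκ i)

variable [LocallyCompactSpace G] [T2Space G] [MeasurableSpace G] [BorelSpace G]
  {μ : Measure G} [IsFiniteMeasureOnCompacts μ] [μ.InnerRegularCompactLTTop]
  [μ.IsMulLeftInvariant] [μ.IsMulRightInvariant] {N : Subgroup G} {K : Set G}

/-- **Mautner lemma with arbitrary conjugators.**  `N` discrete and cocompact in `G`, `E` bounded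
measurable and a.e. invariant under `N` on both sides; `a i ∈ G` ARBITRARY with
`a i * u * (a i)⁻¹ → 1`.  Then `E` is a.e. right invariant under `u`. -/
theorem mem_rstab_of_contracted (hN : Cocpt N K) {E : G → ℝ} (hE : Measurable E) {C : ℝ}
    (hC : ∀ x, |E x| ≤ C) (hleft : ∀ γ ∈ N, ∀ᵐ x ∂μ, E (γ * x) = E x)
    (hright : ∀ γ ∈ N, ∀ᵐ x ∂μ, E (x * γ) = E x)
    {ι : Type*} {l : Filter ι} [l.NeBot] (a : ι → G) {u : G}
    (hu : Tendsto (fun i => a i * u * (a i)⁻¹) l (𝓝 1)) : u ∈ rstab μ E := by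
  choose γ hγ hγK using fun i => hN.cover (a i)⁻¹
  refine mem_rstab_of_tendsto_ae hN hE hC hleft (l := l) γ (fun i => hright _ (hγ i)) ?_
  refine (tendsto_conj_of_compact hN.compact hγK hu).congr fun i => ?_
  group

/-- powers of an arbitrary element -/
theorem mem_rstab_of_contracted_pow (hN : Cocpt N K) {E : G → ℝ} (hE : Measurable E) {C : ℝ}
    (hC : ∀ x, |E x| ≤ C) (hleft : ∀ γ ∈ N, ∀ᵐ x ∂μ, E (γ * x) = E x)
    (hright : ∀ γ ∈ N, ∀ᵐ x ∂μ, E (x * γ) = E x) (a : G) {u : G}
    (hu : Tendsto (fun m : ℕ => a ^ m * u * (a ^ m)⁻¹) atTop (𝓝 1)) : u ∈ rstab μ E :=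
  mem_rstab_of_contracted hN hE hC hleft hright (fun m : ℕ => a ^ m) hu

end Contracted

section SL

open Matrix.SpecialLinearGroup

variable {G : Type*} [Group G] [TopologicalSpace G] [IsTopologicalGroup G]
  [LocallyCompactSpace G] [T2Space G] [MeasurableSpace G] [BorelSpace G]
  {μ : Measure G} [IsFiniteMeasureOnCompacts μ] [μ.InnerRegularCompactLTTop]
  [μ.IsMulLeftInvariant] [μ.IsMulRightInvariant] {N : Subgroup G} {K : Set G}
  {ι F : Type*} [Fintype ι] [DecidableEq ι] [Nontrivial ι] [Field F] [TopologicalSpace F]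

/-- **Mautner for a factor `SL_n(F)`**, `n ≥ 2`, `F` any topological field with an element `ϖ`
such that `x * ϖ ^ m → 0`. -/
theorem sl_le_rstab (hN : Cocpt N K) {E : G → ℝ} (hE : Measurable E) {C : ℝ}
    (hC : ∀ x, |E x| ≤ C) (hleft : ∀ γ ∈ N, ∀ᵐ x ∂μ, E (γ * x) = E x)
    (hright : ∀ γ ∈ N, ∀ᵐ x ∂μ, E (x * γ) = E x)
    {ϖ : F} (hϖ : ϖ ≠ 0) (hpow : ∀ x : F, Tendsto (fun m : ℕ => x * (ϖ ^ 2) ^ m) atTop (𝓝 0))
    (j : SpecialLinearGroup ι F →* G)
    (hj : ∀ (i k : ι) (hik : i ≠ k),
      Tendsto (fun a : F => j (transvection hik a)) (𝓝 0) (𝓝 1)) :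
    j.range ≤ rstab μ E := by
  have key : ∀ (i k : ι) (hik : i ≠ k) (a : F), j (transvection hik a) ∈ rstab μ E := by
    intro i k hik a
    refine mem_rstab_of_contracted_pow hN hE hC hleft hright
      (j (diag2n hik ϖ⁻¹ (inv_ne_zero hϖ)))⁻¹ ?_
    have h1 := (hj i k hik).comp (hpow a)
    refine h1.congr fun m => ?_
    have h2 := H748.conj_transvection hik a ϖ⁻¹ (inv_ne_zero hϖ) m
    rw [inv_inv] at h2
    simp only [Function.comp_apply]
    rw [← h2, map_mul, map_mul, map_inv, map_pow, inv_pow, inv_inv]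
  rintro _ ⟨g, rfl⟩
  refine diagonal_transvection_induction' (fun g => j g ∈ rstab μ E) g ?_ key ?_
  · intro i k hik c hc
    rw [H748.diag2n_eq hik c hc]
    simp only [map_mul]
    exact (rstab μ E).mul_mem ((rstab μ E).mul_mem ((rstab μ E).mul_mem (key _ _ _ _) (key _ _ _ _))
      (key _ _ _ _)) ((rstab μ E).mul_mem ((rstab μ E).mul_mem (key _ _ _ _) (key _ _ _ _))
      (key _ _ _ _))
  · intro A B hA hB
    change j (A * B) ∈ rstab μ E
    rw [map_mul]
    exact (rstab μ E).mul_mem hA hB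

/-- `E` is a.e. right invariant under the closed subgroup generated by `N` and `SL_n(F)` -/
theorem sl_closure_le_rstab (hN : Cocpt N K) {E : G → ℝ} (hE : Measurable E) {C : ℝ}
    (hC : ∀ x, |E x| ≤ C) (hleft : ∀ γ ∈ N, ∀ᵐ x ∂μ, E (γ * x) = E x)
    (hright : ∀ γ ∈ N, ∀ᵐ x ∂μ, E (x * γ) = E x)
    {ϖ : F} (hϖ : ϖ ≠ 0) (hpow : ∀ x : F, Tendsto (fun m : ℕ => x * (ϖ ^ 2) ^ m) atTop (𝓝 0))
    (j : SpecialLinearGroup ι F →* G)
    (hj : ∀ (i k : ι) (hik : i ≠ k),
      Tendsto (fun a : F => j (transvection hik a)) (𝓝 0) (𝓝 1)) :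
    (N ⊔ j.range).topologicalClosure ≤ rstab μ E := by
  refine Subgroup.topologicalClosure_minimal _ (sup_le hright ?_)
    (rstab_closed_ae hN hE hC hleft)
  exact sl_le_rstab hN hE hC hleft hright hϖ hpow j hj

end SL

end Vale.Agent.P011.H699
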