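import Vale.Agent.P011.H219.Kernel
import Vale.Agent.P011.H699.SLContr
import Vale.Agent.P011.H83.Unif

/-!
# Mautner's lemma for conjugation

`G` a locally compact unimodular group, `i : Γ →* G` with `Γ` countable, `c : Γ →* Q`, `A` a finite
`Q`-set, `ψ a : G → ℝ` (`a ∈ A`) bounded measurable functions with
`ψ (c γ • a) (i γ * g * (i γ)⁻¹) = ψ a g` almost everywhere.  For fixed `p` the functions
`F a : g ↦ ψ a (g * p * g⁻¹)` are left invariant under `ker c` and right invariant under the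
centraliser of `p`; Mautner's lemma makes them right (hence left) invariant under `SL_n(F)`, and if
`i γ` tends to `1` modulo `SL_n(F)` while `c γ = ρ`, then `F (ρ • a) = F a`.
-/

open MeasureTheory Filter Topology Set
open scoped ENNReal NNReal Pointwise

namespace Vale.Agent.P011.H699

section Conj

variable {G : Type*} [Group G] [TopologicalSpace G] [IsTopologicalGroup G]
  [LocallyCompactSpace G] [T2Space G] [SecondCountableTopology G] [MeasurableSpace G]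
  [BorelSpace G] {μ : Measure G} [μ.IsHaarMeasure] [μ.IsMulRightInvariant]

omit [LocallyCompactSpace G] [T2Space G] [SecondCountableTopology G] in
/-- conjugation preserves a biinvariant measure -/
theorem measurePreserving_conj (μ : Measure G) [μ.IsMulLeftInvariant] [μ.IsMulRightInvariant]
    (x : G) : MeasurePreserving (fun g => x * g * x⁻¹) μ μ :=
  ⟨(H83.LR x x⁻¹).measurable, H83.map_LR μ x x⁻¹⟩

variable {Γ Q A : Type*} [Group Γ] [Countable Γ] [Group Q] [MulAction Q A]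

omit [LocallyCompactSpace G] [T2Space G] [SecondCountableTopology G] in
/-- an exactly equivariant representative -/
theorem exists_equivariant [Countable A] (i : Γ →* G) (c : Γ →* Q) {ψ : A → G → ℝ}
    (hψ : ∀ a, Measurable (ψ a)) {C : ℝ} (hC : ∀ a g, |ψ a g| ≤ C)
    (hequiv : ∀ γ a, ∀ᵐ g ∂μ, ψ (c γ • a) (i γ * g * (i γ)⁻¹) = ψ a g) :
    ∃ ψ' : A → G → ℝ, (∀ a, Measurable (ψ' a)) ∧ (∀ a g, |ψ' a g| ≤ C) ∧
      (∀ γ a g, ψ' (c γ • a) (i γ * g * (i γ)⁻¹) = ψ' a g) ∧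
      (∀ a, ∀ᵐ g ∂μ, ψ' a g = ψ a g) := by
  classical
  set B : Set G := {g | ∀ (γ : Γ) (a : A), ψ (c γ • a) (i γ * g * (i γ)⁻¹) = ψ a g} with hB
  have hmc : ∀ x : G, Measurable fun g : G => x * g * x⁻¹ := fun x =>
    (measurePreserving_conj μ x).measurable
  have hBm : MeasurableSet B := by
    have : B = ⋂ (γ : Γ), ⋂ (a : A), {g | ψ (c γ • a) (i γ * g * (i γ)⁻¹) = ψ a g} := by
      ext x; simp [hB]
    rw [this]
    exact MeasurableSet.iInter fun γ => MeasurableSet.iInter fun a =>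
      measurableSet_eq_fun ((hψ _).comp (hmc (i γ))) (hψ a)
  have hBae : ∀ᵐ g ∂μ, g ∈ B := by
    have : ∀ᵐ g ∂μ, ∀ (γ : Γ) (a : A), ψ (c γ • a) (i γ * g * (i γ)⁻¹) = ψ a g := by
      rw [ae_all_iff]
      intro γ
      rw [ae_all_iff]
      exact hequiv γ
    exact this
  have one : ∀ (δ : Γ) (g : G), g ∈ B → i δ * g * (i δ)⁻¹ ∈ B := by
    intro δ g hg γ a
    have h1 := hg (γ * δ) ((c δ)⁻¹ • a)
    have h2 := hg δ ((c δ)⁻¹ • a)
    rw [smul_inv_smul] at h2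
    rw [map_mul, map_mul, mul_smul, smul_inv_smul] at h1
    rw [h2, ← h1]
    congr 1
    group
  have hBinv : ∀ (δ : Γ) (g : G), i δ * g * (i δ)⁻¹ ∈ B ↔ g ∈ B := by
    intro δ g
    refine ⟨fun h => ?_, one δ g⟩
    have := one δ⁻¹ _ h
    rw [map_inv] at this
    have e : (i δ)⁻¹ * (i δ * g * (i δ)⁻¹) * (i δ)⁻¹⁻¹ = g := by group
    rwa [e] at this
  refine ⟨fun a => B.indicator (ψ a), fun a => (hψ a).indicator hBm, ?_, ?_, ?_⟩
  · intro a g
    by_cases hx : g ∈ B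
    · simpa [hx] using hC a g
    · simpa [hx] using (abs_nonneg _).trans (hC a g)
  · intro γ a g
    change B.indicator (ψ (c γ • a)) (i γ * g * (i γ)⁻¹) = B.indicator (ψ a) g
    by_cases hx : g ∈ B
    · rw [indicator_of_mem hx, indicator_of_mem ((hBinv γ g).2 hx)]
      exact hx γ a
    · rw [indicator_of_notMem hx, indicator_of_notMem (fun h => hx ((hBinv γ g).1 h))]
  · intro a
    filter_upwards [hBae] with g hg
    rw [indicator_of_mem hg]

variable {G₀ : Type*} [Group G₀] [MeasurableSpace G₀] [MeasurableMul G₀] {μ₀ : Measure G₀}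
  [SFinite μ₀] [μ₀.IsMulLeftInvariant]

/-- the fibre over `p` -/
theorem fibre_fixed [Finite A] (i : Γ →* G) (c : Γ →* Q) (hμ₀ : μ₀ ≠ 0) (j : G₀ →* G)
    (hj : Measurable j) (hn : j.range.Normal) {p : G}
    (hM : ∀ E : G → ℝ, Measurable E → (∃ C : ℝ, ∀ g, |E g| ≤ C) →
      (∀ γ : Γ, c γ = 1 → ∀ g, E (i γ * g) = E g) → (∀ w, Commute w p → ∀ g, E (g * w) = E g) →
      ∀ s : G₀, ∀ᵐ g ∂μ, E (g * j s) = E g)
    {ρ : Q} (hρ : ∀ O ∈ 𝓝 (1 : G), ∃ γ : Γ, c γ = ρ ∧ ∃ o ∈ O, ∃ s : G₀, i γ = o * j s)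
    {ψ : A → G → ℝ} (hψ : ∀ a, Measurable (ψ a)) {C : ℝ} (hC : ∀ a g, |ψ a g| ≤ C)
    (hequiv : ∀ γ a g, ψ (c γ • a) (i γ * g * (i γ)⁻¹) = ψ a g) :
    ∀ᵐ g ∂μ, ∀ a, ψ (ρ • a) (g * p * g⁻¹) = ψ a (g * p * g⁻¹) := by
  classical
  have := Fintype.ofFinite A
  have hmp : Measurable fun g : G => g * p * g⁻¹ :=
    (continuous_id.mul continuous_const |>.mul continuous_inv).measurable
  let f : G → EuclideanSpace ℝ A := fun g => WithLp.toLp 2 fun a => ψ a (g * p * g⁻¹)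
  have hf : Measurable f :=
    (WithLp.measurable_toLp 2 (A → ℝ)).comp
      (measurable_pi_lambda _ fun a => (hψ a).comp hmp)
  have key := H219.slice_fixed (μ := μ) (μ₀ := μ₀) hμ₀ j hj hn
    (fun s => (measurePreserving_mul_right μ (j s)).quasiMeasurePreserving)
    (f := f) hf.aestronglyMeasurable (fun s => ?_)
    (LinearIsometryEquiv.piLpCongrLeft 2 ℝ ℝ (MulAction.toPerm ρ)) (fun O hO => ?_)
  · filter_upwards [key] with g hg a
    have h1 := congrArg (fun v : EuclideanSpace ℝ A => v (ρ • a)) hg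
    simp only [LinearIsometryEquiv.piLpCongrLeft_apply] at h1
    simpa [f] using h1.symm
  · have h1 : ∀ a, ∀ᵐ g ∂μ, ψ a (g * j s * p * (g * j s)⁻¹) = ψ a (g * p * g⁻¹) := by
      intro a
      refine hM (fun g => ψ a (g * p * g⁻¹)) ((hψ a).comp hmp) ⟨C, fun g => hC _ _⟩ ?_ ?_ s
      · intro γ hγ g
        have h2 := hequiv γ a (g * p * g⁻¹)
        rw [hγ, one_smul] at h2
        rw [← h2]
        congr 1
        group
      · intro w hw g
        change ψ a (g * w * p * (g * w)⁻¹) = ψ a (g * p * g⁻¹)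
        congr 1
        rw [mul_assoc g w p, hw.eq]
        group
    filter_upwards [ae_all_iff.2 h1] with g hg
    change WithLp.toLp 2 _ = WithLp.toLp 2 _
    congr 1
    funext a
    exact hg a
  · obtain ⟨γ, hγ, o, ho, s, hs⟩ := hρ O hO
    refine ⟨i γ, Eventually.of_forall fun g => ?_, o, ho, s, hs⟩
    ext b
    rw [LinearIsometryEquiv.piLpCongrLeft_apply]
    change ψ b (i γ * g * p * (i γ * g)⁻¹) = ψ ((MulAction.toPerm ρ).symm b) (g * p * g⁻¹)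
    have h2 := hequiv γ ((c γ)⁻¹ • b) (g * p * g⁻¹)
    rw [smul_inv_smul] at h2
    have h3 : (MulAction.toPerm ρ).symm b = (c γ)⁻¹ • b := by
      rw [hγ]; rfl
    rw [h3, ← h2]
    congr 1
    group

/-- **Mautner's lemma for conjugation**, densities. -/
theorem conj_fixed [Finite A] (i : Γ →* G) (c : Γ →* Q) (hμ₀ : μ₀ ≠ 0) (j : G₀ →* G)
    (hj : Measurable j) (hn : j.range.Normal) {X0 : Set G} (hX0 : IsOpen X0)
    (hM : ∀ p ∈ X0, ∀ E : G → ℝ, Measurable E → (∃ C : ℝ, ∀ g, |E g| ≤ C) →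
      (∀ γ : Γ, c γ = 1 → ∀ g, E (i γ * g) = E g) → (∀ w, Commute w p → ∀ g, E (g * w) = E g) →
      ∀ s : G₀, ∀ᵐ g ∂μ, E (g * j s) = E g)
    {ρ : Q} (hρ : ∀ O ∈ 𝓝 (1 : G), ∃ γ : Γ, c γ = ρ ∧ ∃ o ∈ O, ∃ s : G₀, i γ = o * j s)
    {ψ : A → G → ℝ} (hψ : ∀ a, Measurable (ψ a)) {C : ℝ} (hC : ∀ a g, |ψ a g| ≤ C)
    (hequiv : ∀ γ a, ∀ᵐ g ∂μ, ψ (c γ • a) (i γ * g * (i γ)⁻¹) = ψ a g) (a : A) :
    ∀ᵐ g ∂μ, g ∈ X0 → ψ (ρ • a) g = ψ a g := by
  obtain ⟨ψ', h1, h2, h3, h4⟩ := exists_equivariant i c hψ hC hequiv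
  suffices hs : ∀ᵐ g ∂μ, g ∈ X0 → ψ' (ρ • a) g = ψ' a g by
    filter_upwards [hs, h4 a, h4 (ρ • a)] with g hg h5 h6 hg0
    rw [← h5, ← h6, hg hg0]
  have hF : Measurable fun x : G × G => x.1 * x.2 * x.1⁻¹ :=
    ((continuous_fst.mul continuous_snd).mul continuous_fst.inv).measurable
  have hms : MeasurableSet {x : G × G | x.2 ∈ X0 →
      ψ' (ρ • a) (x.1 * x.2 * x.1⁻¹) = ψ' a (x.1 * x.2 * x.1⁻¹)} := by
    refine MeasurableSet.imp ?_ ?_
    · exact hX0.measurableSet.preimage measurable_snd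
    · exact measurableSet_eq_fun ((h1 _).comp hF) ((h1 _).comp hF)
  have h5 : ∀ᵐ p ∂μ, ∀ᵐ g ∂μ, p ∈ X0 →
      ψ' (ρ • a) (g * p * g⁻¹) = ψ' a (g * p * g⁻¹) := by
    refine Eventually.of_forall fun p => ?_
    by_cases hp : p ∈ X0
    · filter_upwards [fibre_fixed i c hμ₀ j hj hn (hM p hp) hρ h1 h2 h3] with g hg _
      exact hg a
    · exact Eventually.of_forall fun g hg => absurd hg hp
  have h6 : ∀ᵐ g ∂μ, ∀ᵐ p ∂μ, p ∈ X0 →
      ψ' (ρ • a) (g * p * g⁻¹) = ψ' a (g * p * g⁻¹) :=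
    (Measure.ae_ae_comm (p := fun g p : G => p ∈ X0 →
      ψ' (ρ • a) (g * p * g⁻¹) = ψ' a (g * p * g⁻¹)) hms).2 h5
  have h7 : ∀ᵐ g ∂μ, ∀ᵐ q ∂μ, g⁻¹ * q * g⁻¹⁻¹ ∈ X0 → ψ' (ρ • a) q = ψ' a q := by
    filter_upwards [h6] with g hg
    have h8 := (measurePreserving_conj μ g⁻¹).quasiMeasurePreserving.ae hg
    filter_upwards [h8] with q hq hq0
    have := hq hq0
    have e : g * (g⁻¹ * q * g⁻¹⁻¹) * g⁻¹ = q := by group
    rwa [e] at this
  have hd := Measure.dense_of_ae h7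
  obtain ⟨t, hts, htc, htd⟩ := hd.exists_countable_dense_subset
  have h8 : ∀ᵐ q ∂μ, ∀ g ∈ t, g⁻¹ * q * g⁻¹⁻¹ ∈ X0 → ψ' (ρ • a) q = ψ' a q :=
    (ae_ball_iff htc).2 fun g hg => hts hg
  filter_upwards [h8] with q hq hq0
  have ho : IsOpen {g : G | g⁻¹ * q * g⁻¹⁻¹ ∈ X0} :=
    hX0.preimage ((continuous_inv.mul continuous_const).mul continuous_inv.inv)
  obtain ⟨g, hg1, hg2⟩ := htd.inter_open_nonempty _ ho ⟨1, by simpa using hq0⟩
  exact hq g hg2 hg1

end Conj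

end Vale.Agent.P011.H699
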