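import Vale.Agent.P011.H699.ConjMautner

/-!
# A split torus element generates: Mautner for `SL_n(F)` with one diagonal element

If `E` is bounded measurable, left invariant under a discrete cocompact subgroup and right
invariant under `j (h * Z * h⁻¹)`, `Z` diagonal with entries of pairwise different size, then `E`
is right invariant under the image of `SL_n(F)`.
-/

open MeasureTheory Filter Topology Set Matrix
open scoped ENNReal NNReal Pointwise

namespace Vale.Agent.P011.H699

open Matrix.SpecialLinearGroup

section Alg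

variable {ι F : Type*} [Fintype ι] [DecidableEq ι] [Field F]

theorem diag_mul_transvection {i k : ι} (hik : i ≠ k) {z : ι → F} (hz0 : ∀ i, z i ≠ 0)
    {Z : SpecialLinearGroup ι F} (hZ : (Z : Matrix ι ι F) = diagonal z) (a : F) :
    Z * transvection hik a = transvection hik (a * (z i / z k)) * Z := by
  refine H748.sl_ext ?_
  rw [map_mul, map_mul, coeMonoidHom_apply, coeMonoidHom_apply, coeMonoidHom_apply,
    transvection_coe, transvection_coe, hZ]
  refine Matrix.ext fun p q => ?_
  rw [mul_diagonal, diagonal_mul, Matrix.add_apply, Matrix.add_apply, Matrix.single_apply,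
    Matrix.single_apply, Matrix.one_apply]
  by_cases h1 : i = p ∧ k = q
  · obtain ⟨rfl, rfl⟩ := h1
    have := hz0 k
    simp only [hik, if_false, and_self, if_true, zero_add]
    field_simp
  · rw [if_neg h1, if_neg h1, add_zero]
    by_cases h2 : p = q
    · subst h2; simp
    · simp [h2]

theorem diag_pow_conj {i k : ι} (hik : i ≠ k) {z : ι → F} (hz0 : ∀ i, z i ≠ 0)
    {Z : SpecialLinearGroup ι F} (hZ : (Z : Matrix ι ι F) = diagonal z) (a : F) (m : ℕ) :
    Z ^ m * transvection hik a * (Z ^ m)⁻¹ = transvection hik (a * (z i / z k) ^ m) := by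
  rw [mul_inv_eq_iff_eq_mul]
  induction m with
  | zero => simp
  | succ m ih =>
    rw [pow_succ' Z, mul_assoc, ih, ← mul_assoc, diag_mul_transvection hik hz0 hZ, mul_assoc,
      pow_succ (z i / z k), mul_assoc a]

theorem diag_inv_pow_conj {i k : ι} (hik : i ≠ k) {z : ι → F} (hz0 : ∀ i, z i ≠ 0)
    {Z : SpecialLinearGroup ι F} (hZ : (Z : Matrix ι ι F) = diagonal z) (a : F) (m : ℕ) :
    Z⁻¹ ^ m * transvection hik a * (Z⁻¹ ^ m)⁻¹ = transvection hik (a * (z k / z i) ^ m) := by
  have h1 := diag_pow_conj hik hz0 hZ (a * (z k / z i) ^ m) m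
  have h2 : a * (z k / z i) ^ m * (z i / z k) ^ m = a := by
    have := hz0 i
    have := hz0 k
    rw [mul_assoc, ← mul_pow]
    have e : z k / z i * (z i / z k) = 1 := by field_simp
    rw [e, one_pow, mul_one]
  rw [h2] at h1
  rw [← h1]
  group

end Alg

section Main

variable {G : Type*} [Group G] [TopologicalSpace G] [IsTopologicalGroup G]
  [LocallyCompactSpace G] [T2Space G] [MeasurableSpace G] [BorelSpace G]
  {μ : Measure G} [IsFiniteMeasureOnCompacts μ] [μ.InnerRegularCompactLTTop]
  [μ.IsMulLeftInvariant] [μ.IsMulRightInvariant] {N : Subgroup G} {K : Set G}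
  {ι F : Type*} [Fintype ι] [DecidableEq ι] [Nontrivial ι] [Field F] [TopologicalSpace F]
  [IsTopologicalRing F]

omit [Nontrivial ι] in
theorem continuous_transvection {i k : ι} (hik : i ≠ k) :
    Continuous fun a : F => (transvection hik a : SpecialLinearGroup ι F) := by
  refine continuous_induced_rng.2 ?_
  refine continuous_matrix fun p q => ?_
  change Continuous fun a : F => ((transvection hik a : SpecialLinearGroup ι F) : Matrix ι ι F) p q
  simp only [transvection_coe, Matrix.add_apply, Matrix.single_apply]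
  refine continuous_const.add ?_
  by_cases h : i = p ∧ k = q
  · simp only [h, and_self, if_true]
    exact continuous_id
  · simp only [h, if_false]
    exact continuous_const

/-- `z` has entries of pairwise different size -/
def Spread (z : ι → F) : Prop :=
  (∀ i, z i ≠ 0) ∧ ∀ i k, i ≠ k →
    (∀ a : F, Tendsto (fun m : ℕ => a * (z i / z k) ^ m) atTop (𝓝 0)) ∨
      (∀ a : F, Tendsto (fun m : ℕ => a * (z k / z i) ^ m) atTop (𝓝 0))

/-- **Mautner for `SL_n(F)` with one diagonal element.** -/
theorem sl_le_rstab_of_diag (hN : Cocpt N K) {E : G → ℝ} (hE : Measurable E) {C : ℝ}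
    (hC : ∀ x, |E x| ≤ C) (hinv : ∀ γ ∈ N, ∀ x, E (γ * x) = E x)
    (j : SpecialLinearGroup ι F →* G) (hj : Continuous j)
    {z : ι → F} (hz : Spread z) {Z : SpecialLinearGroup ι F}
    (hZ : (Z : Matrix ι ι F) = diagonal z) {h : SpecialLinearGroup ι F}
    (hw : j (h * Z * h⁻¹) ∈ rstab μ E) : j.range ≤ rstab μ E := by
  have hcont : ∀ (i k : ι) (hik : i ≠ k),
      Tendsto (fun a : F => j (h * transvection hik a * h⁻¹)) (𝓝 0) (𝓝 1) := by
    intro i k hik
    have h1 : Continuous fun a : F => j (h * transvection hik a * h⁻¹) :=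
      hj.comp ((continuous_const.mul (continuous_transvection hik)).mul continuous_const)
    have h2 := h1.tendsto 0
    have h3 : (transvection hik (0 : F) : SpecialLinearGroup ι F) = 1 := by
      refine H748.sl_ext ?_
      rw [coeMonoidHom_apply, transvection_coe]
      simp
    simpa [h3] using h2
  have key : ∀ (i k : ι) (hik : i ≠ k) (a : F), j (h * transvection hik a * h⁻¹) ∈ rstab μ E := by
    intro i k hik a
    rcases hz.2 i k hik with h1 | h1
    · refine mem_rstab_of_pow hN hE hC hinv hw ?_
      refine ((hcont i k hik).comp (h1 a)).congr fun m => ?_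
      rw [Function.comp_apply, ← diag_pow_conj hik hz.1 hZ a m, ← map_pow, ← map_inv, ← map_mul,
        ← map_mul]
      congr 1
      rw [conj_pow]
      group
    · have hw' : j (h * Z⁻¹ * h⁻¹) ∈ rstab μ E := by
        have := (rstab μ E).inv_mem hw
        rw [← map_inv] at this
        have e : (h * Z * h⁻¹)⁻¹ = h * Z⁻¹ * h⁻¹ := by group
        rwa [e] at this
      refine mem_rstab_of_pow hN hE hC hinv hw' ?_
      refine ((hcont i k hik).comp (h1 a)).congr fun m => ?_
      rw [Function.comp_apply, ← diag_inv_pow_conj hik hz.1 hZ a m, ← map_pow, ← map_inv,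
        ← map_mul, ← map_mul]
      congr 1
      rw [conj_pow]
      group
  let P : Subgroup (SpecialLinearGroup ι F) :=
    (rstab μ E).comap (j.comp (MulAut.conj h).toMonoidHom)
  have keyP : ∀ (i k : ι) (hik : i ≠ k) (a : F),
      (transvection hik a : SpecialLinearGroup ι F) ∈ P := key
  have all : ∀ g : SpecialLinearGroup ι F, g ∈ P := by
    intro g
    refine diagonal_transvection_induction' (fun g => g ∈ P) g ?_ keyP fun A B => P.mul_mem
    intro i k hik c hc
    rw [H748.diag2n_eq hik c hc]
    exact P.mul_mem (P.mul_mem (P.mul_mem (keyP _ _ _ _) (keyP _ _ _ _)) (keyP _ _ _ _))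
      (P.mul_mem (P.mul_mem (keyP _ _ _ _) (keyP _ _ _ _)) (keyP _ _ _ _))
  rintro _ ⟨g, rfl⟩
  have h5 : j (h * (h⁻¹ * g * h) * h⁻¹) ∈ rstab μ E := all (h⁻¹ * g * h)
  have e : h * (h⁻¹ * g * h) * h⁻¹ = g := by group
  rwa [e] at h5

end Main

end Vale.Agent.P011.H699
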